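import Crest.Agent.H9.Beh

set_option autoImplicit false

namespace Crest.Agent.H9

open Relation

variable {Q : Type*}

instance : Mul (Beh Q) := ⟨fun a b => bb [a, b]⟩
theorem mul_def' (a b : Beh Q) : a * b = bb [a, b] := rfl

theorem reach_none {l : List (Beh Q)} {y : Node Q} (h : Reach l none y) : y = none := by
  rcases reach_cases_head h with h | ⟨k, c, i, o, _, h, _⟩
  · exact h.symm
  · cases h

theorem reach_left_exit {l : List (Beh Q)} {q : Q} {y : Node Q}
    (h : Reach l (some (0, false, q)) y) : y = some (0, false, q) := by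
  rcases reach_cases_head h with h | ⟨k, c, i, o, _, h, _⟩
  · exact h.symm
  · rcases i with ⟨_ | _, q'⟩ <;> simp at h

theorem reach_right_exit {l : List (Beh Q)} {q : Q} {y : Node Q}
    (h : Reach l (some (l.length, true, q)) y) : y = some (l.length, true, q) := by
  rcases reach_cases_head h with h | ⟨k, c, i, o, hk, h, _⟩
  · exact h.symm
  · have := lt_of_get? hk
    rcases i with ⟨_ | _, q'⟩ <;> simp at h
    omega

theorem bb_merge {L u R : List (Beh Q)} (hu : u ≠ []) :
    bb (L ++ u ++ R) = bb (L ++ [bb u] ++ R) := by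
  obtain ⟨m, hm⟩ : ∃ m, u.length = m + 1 := by
    rcases u with _ | ⟨c, u⟩
    · exact absurd rfl hu
    · exact ⟨u.length, rfl⟩
  apply Beh.ext'
  intro i o
  unfold bb
  have h := merge (L := L) (u := u) (R := R) hm
    (some (inS 0 (L ++ [bb u] ++ R).length i)) (o.map (outS 0 (L ++ [bb u] ++ R).length))
  have e1 : emb L.length m (some (inS 0 (L ++ [bb u] ++ R).length i))
      = some (inS 0 (L ++ u ++ R).length i) := by
    rcases i with ⟨_ | _, q⟩
    · simp
    · simp; omega
  have e2 : emb L.length m (o.map (outS 0 (L ++ [bb u] ++ R).length))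
      = o.map (outS 0 (L ++ u ++ R).length) := by
    rcases o with _ | ⟨_ | _, q⟩
    · simp
    · simp
    · simp; omega
  rw [e1, e2] at h
  exact h

theorem bb_singleton (c : Beh Q) : bb [c] = c := by
  apply Beh.ext'
  intro i o
  constructor
  · intro h
    unfold bb at h
    rcases reach_cases_head h with h | ⟨k, c', i', o', hk, hi, hc, h2⟩
    · rcases i with ⟨_ | _, q⟩ <;> rcases o with _ | ⟨_ | _, q'⟩ <;> simp at h
    · have hk0 := lt_of_get? hk
      have hk1 : k = 0 := by simpa using hk0
      subst hk1
      simp at hk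
      subst hk
      have hii : i' = i := by
        rcases i with ⟨_ | _, q⟩ <;> rcases i' with ⟨_ | _, q'⟩ <;> simp at hi ⊢
        · exact hi.symm
        · exact hi.symm
      subst hii
      rcases reach_cases_head h2 with h | ⟨k, c', i'', o'', hk, hi, hc', h3⟩
      · have : o' = o := by
          rcases o with _ | ⟨_ | _, q⟩ <;> rcases o' with _ | ⟨_ | _, q'⟩ <;> simp at h ⊢
          · exact h
          · exact h
        subst this
        exact hc
      · exfalso
        have hk0 := lt_of_get? hk
        have hk1 : k = 0 := by simpa using hk0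
        subst hk1
        rcases o' with _ | ⟨_ | _, q⟩ <;> rcases i'' with ⟨_ | _, q'⟩ <;> simp at hi
  · intro h
    exact ReflTransGen.single (Edge.mk' (l := [c]) (k := 0) rfl h)

theorem bb_three_left (a b c : Beh Q) : bb [a, b, c] = (a * b) * c := by
  have := bb_merge (L := []) (u := [a, b]) (R := [c]) (by simp)
  exact this

theorem bb_three_right (a b c : Beh Q) : bb [a, b, c] = a * (b * c) := by
  have := bb_merge (L := [a]) (u := [b, c]) (R := []) (by simp)
  exact this

instance : Semigroup (Beh Q) where
  mul_assoc a b c := by rw [← bb_three_left, bb_three_right]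

theorem bb_append {u v : List (Beh Q)} (hu : u ≠ []) (hv : v ≠ []) :
    bb (u ++ v) = bb u * bb v := by
  have h1 := bb_merge (L := []) (u := u) (R := v) hu
  have h2 := bb_merge (L := [bb u]) (u := v) (R := []) hv
  simp only [List.nil_append, List.append_nil] at h1 h2
  rw [h1, h2]
  rfl

theorem bb_cons (c : Beh Q) {v : List (Beh Q)} (hv : v ≠ []) :
    bb (c :: v) = c * bb v := by
  have := bb_append (u := [c]) (v := v) (by simp) hv
  rw [bb_singleton] at this
  simpa using this

theorem bb_flatten {ls : List (List (Beh Q))} (hls : ls ≠ []) (h : ∀ u ∈ ls, u ≠ []) :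
    bb ls.flatten = bb (ls.map bb) := by
  induction ls with
  | nil => exact absurd rfl hls
  | cons u ls ih =>
    rcases ls with _ | ⟨v, ls⟩
    · simp [bb_singleton]
    · have hne : (v :: ls).flatten ≠ [] := by
        have := h v (by simp)
        intro hcon
        simp at hcon
        exact this hcon.1
      rw [List.flatten_cons, bb_append (h u (by simp)) hne, ih (by simp) (fun w hw => h w (by simp [hw])),
        List.map_cons (l := v :: ls), bb_cons]
      simp

/-- right-moving node -/
abbrev At (p : ℕ) (q : Q) : Node Q := some (p, true, q)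

def LR (M : Beh Q) (x y : Q) : Prop := M (false, x) (some (true, y))
def J (L R : Beh Q) (x y : Q) : Prop := Reach [L, R] (At 1 x) (At 1 y)
def al (L M R : Beh Q) (x y : Q) : Prop := Reach [L, M, R] (At 1 x) (At 2 y)
def eta (L M : Beh Q) (x y : Q) : Prop := Reach [L, M] (At 1 x) (At 2 y)
def zet (L R : Beh Q) (x y : Q) : Prop := Reach [L, R] (At 0 x) (At 1 y)

theorem merge2 (L R : List (Beh Q)) (a b : Beh Q) (x y : Node Q) :
    Reach (L ++ [a, b] ++ R) (emb L.length 1 x) (emb L.length 1 y) ↔
      Reach (L ++ [a * b] ++ R) x y :=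
  merge (u := [a, b]) (m := 1) rfl x y

theorem al_comp {L M M' R : Beh Q} {x y z : Q} (h1 : al L M (M' * R) x y)
    (h2 : al (L * M) M' R y z) : al L (M * M') R x z := by
  unfold al at *
  have a1 : Reach [L, M, M', R] (At 1 x) (At 2 y) := by
    simpa using (merge2 [L, M] [] M' R (At 1 x) (At 2 y)).2 h1
  have a2 : Reach [L, M, M', R] (At 2 y) (At 3 z) := by
    simpa using (merge2 [] [M', R] L M (At 1 y) (At 2 z)).2 h2
  have a3 := a1.trans a2
  apply (merge2 [L] [R] M M' (At 1 x) (At 2 z)).1
  simpa using a3

theorem al_J {L M R : Beh Q} {x y z : Q} (h1 : J L (M * R) x y) (h2 : al L M R y z) :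
    al L M R x z := by
  unfold al J at *
  have a1 : Reach [L, M, R] (At 1 x) (At 1 y) := by
    simpa using (merge2 [L] [] M R (At 1 x) (At 1 y)).2 h1
  exact a1.trans h2

theorem J_al {L M R : Beh Q} {x y z : Q} (h1 : al L M R x y) (h2 : J (L * M) R y z) :
    al L M R x z := by
  unfold al J at *
  have a1 : Reach [L, M, R] (At 2 y) (At 2 z) := by
    simpa using (merge2 [] [R] L M (At 1 y) (At 1 z)).2 h2
  exact h1.trans a1

theorem al_envL {L M R : Beh Q} (X : Beh Q) {x y : Q} (h : al L M R x y) : al (X * L) M R x y := by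
  unfold al at *
  apply (merge2 [] [M, R] X L (At 1 x) (At 2 y)).1
  simpa using Reach.shift (L := [X]) (R := []) h

theorem al_envR {L M R : Beh Q} (Y : Beh Q) {x y : Q} (h : al L M R x y) : al L M (R * Y) x y := by
  unfold al at *
  apply (merge2 [L, M] [] R Y (At 1 x) (At 2 y)).1
  simpa using Reach.shift (L := []) (R := [Y]) h

theorem J_envL {L R : Beh Q} (X : Beh Q) {x y : Q} (h : J L R x y) : J (X * L) R x y := by
  unfold J at *
  apply (merge2 [] [R] X L (At 1 x) (At 1 y)).1
  simpa using Reach.shift (L := [X]) (R := []) h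

theorem J_envR {L R : Beh Q} (Y : Beh Q) {x y : Q} (h : J L R x y) : J L (R * Y) x y := by
  unfold J at *
  apply (merge2 [L] [] R Y (At 1 x) (At 1 y)).1
  simpa using Reach.shift (L := []) (R := [Y]) h

theorem eta_envL {L M : Beh Q} (X : Beh Q) {x y : Q} (h : eta L M x y) : eta (X * L) M x y := by
  unfold eta at *
  apply (merge2 [] [M] X L (At 1 x) (At 2 y)).1
  simpa using Reach.shift (L := [X]) (R := []) h

theorem al_of_eta {L M : Beh Q} (R : Beh Q) {x y : Q} (h : eta L M x y) : al L M R x y := by
  unfold eta al at *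
  simpa using Reach.shift (L := []) (R := [R]) h

theorem eta_of_LR (L : Beh Q) {M : Beh Q} {x y : Q} (h : LR M x y) : eta L M x y :=
  ReflTransGen.single (Edge.mk' (l := [L, M]) (k := 1) rfl h)

theorem al_of_LR (L R : Beh Q) {M : Beh Q} {x y : Q} (h : LR M x y) : al L M R x y :=
  al_of_eta R (eta_of_LR L h)

theorem zet_of_LR (R : Beh Q) {L : Beh Q} {x y : Q} (h : LR L x y) : zet L R x y :=
  ReflTransGen.single (Edge.mk' (l := [L, R]) (k := 0) rfl h)

theorem al_factor {L M R : Beh Q} {x y : Q} (h : al L M R x y) :
    ∃ a b, J L (M * R) x a ∧ LR M a b ∧ J (L * M) R b y := by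
  unfold al at h
  have key : ∀ z, Reach [L, M, R] (At 1 x) z →
      (∃ a b, Reach [L, M, R] (At 1 x) (At 1 a) ∧ LR M a b ∧ Reach [L, M, R] (At 2 b) z) ∨
      z = none ∨ (∃ p d q, z = some (p, d, q) ∧ p ≤ 1) := by
    intro z hz
    induction hz with
    | refl => exact Or.inr (Or.inr ⟨1, true, x, rfl, le_refl _⟩)
    | @tail z z2 hxz hzz ih =>
      rcases ih with ⟨a, b, h1, h2, h3⟩ | rfl | ⟨p, d, q, rfl, hp⟩
      · exact Or.inl ⟨a, b, h1, h2, h3.tail hzz⟩
      · obtain ⟨k, c, i, o, _, _, h, _⟩ := hzz
        cases h
      · obtain ⟨k, c, i, o, hk, hc, h, rfl⟩ := hzz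
        have hk3 := lt_of_get? hk
        simp at hk3
        obtain rfl | rfl | rfl : k = 0 ∨ k = 1 ∨ k = 2 := by omega
        · right
          rcases o with _ | ⟨_ | _, q'⟩
          · left; rfl
          · right; exact ⟨0, false, q', rfl, by omega⟩
          · right; exact ⟨1, true, q', rfl, by omega⟩
        · rcases i with ⟨_ | _, q'⟩
          · simp at h
            obtain ⟨rfl, rfl, rfl⟩ := h
            rcases o with _ | ⟨_ | _, q'⟩
            · right; left; rfl
            · right; right; exact ⟨1, false, q', rfl, by omega⟩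
            · left
              simp at hk
              subst hk
              exact ⟨q, q', hxz, hc, ReflTransGen.refl⟩
          · simp at h
            omega
        · rcases i with ⟨_ | _, q'⟩ <;> simp at h <;> omega
  rcases key _ h with ⟨a, b, h1, h2, h3⟩ | h | ⟨p, d, q, h, hp⟩
  · refine ⟨a, b, ?_, h2, ?_⟩
    · unfold J
      apply (merge2 [L] [] M R (At 1 x) (At 1 a)).1
      simpa using h1
    · unfold J
      apply (merge2 [] [R] L M (At 1 b) (At 1 y)).1
      simpa using h3
  · cases h
  · simp at h
    omega

theorem LR_mul {A B : Beh Q} {x y : Q} (h : LR (A * B) x y) :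
    ∃ a, LR A x a ∧ eta A B a y := by
  have h' : Reach [A, B] (At 0 x) (At 2 y) := h
  rcases reach_cases_head h' with h | ⟨k, c, i, o, hk, hi, hc, h2⟩
  · simp at h
  · rcases i with ⟨_ | _, q⟩
    · simp at hi
      obtain ⟨rfl, rfl⟩ := hi
      simp at hk
      subst hk
      rcases o with _ | ⟨_ | _, a⟩
      · have := reach_none h2
        cases this
      · have := reach_left_exit h2
        simp at this
      · exact ⟨a, hc, h2⟩
    · simp at hi

theorem LR_of_mul {A B : Beh Q} {x a y : Q} (h1 : LR A x a) (h2 : eta A B a y) :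
    LR (A * B) x y := by
  have : Reach [A, B] (At 0 x) (At 2 y) :=
    (ReflTransGen.single (Edge.mk' (l := [A, B]) (k := 0) rfl h1)).trans h2
  exact this

theorem LR_mul3 {A M B : Beh Q} {x y : Q} (h : LR (A * (M * B)) x y) :
    ∃ a b, LR A x a ∧ al A M B a b ∧ LR B b y := by
  have h' : Reach [A, M, B] (At 0 x) (At 3 y) := by
    have := h
    rw [← bb_three_right] at this
    exact this
  rcases reach_cases_head h' with h | ⟨k, c, i, o, hk, hi, hc, h2⟩
  · simp at h
  · rcases i with ⟨_ | _, q⟩
    · simp at hi
      obtain ⟨rfl, rfl⟩ := hi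
      simp at hk
      subst hk
      rcases o with _ | ⟨_ | _, a⟩
      · have := reach_none h2
        cases this
      · have := reach_left_exit h2
        simp at this
      · have h2' : Reach [A, M, B] (At 1 a) (At 3 y) := h2
        rcases ReflTransGen.cases_tail h2' with h | ⟨z, hz, k, c', i, o, hk, hc', hzi, ho⟩
        · simp at h
        · have hk3 := lt_of_get? hk
          simp at hk3
          rcases o with _ | ⟨_ | _, y'⟩
          · simp at ho
          · simp at ho
          · simp at ho
            obtain ⟨h3, rfl⟩ := ho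
            obtain rfl : k = 2 := by omega
            simp at hk
            subst hk
            rcases i with ⟨_ | _, b⟩
            · refine ⟨a, b, hc, ?_, hc'⟩
              subst hzi
              exact hz
            · exfalso
              subst hzi
              rcases reach_cases hz with h | ⟨k', c2, o', hk', ho'⟩
              · simp at h
              · have hk3 := lt_of_get? hk'
                simp at hk3
                rcases o' with _ | ⟨_ | _, q'⟩ <;> simp at ho'
                omega
    · simp at hi

end Crest.Agent.H9
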