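import Mathlib

set_option autoImplicit false

namespace Crest.Agent.H9

open Relation

variable {Q : Type*}

/-- port: side (false = left, true = right) and state -/
abbrev Port (Q : Type*) := Bool × Q

/-- behaviours of two-way segments; `none` is acceptance inside the segment -/
def Beh (Q : Type*) := Port Q → Option (Port Q) → Prop

abbrev Node (Q : Type*) := Option (ℕ × Bool × Q)

instance [Finite Q] : Finite (Beh Q) :=
  inferInstanceAs (Finite (Port Q → Option (Port Q) → Prop))

theorem Beh.ext' {a b : Beh Q} (h : ∀ i o, a i o ↔ b i o) : a = b := by
  funext i o; exact propext (h i o)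

def inS (a b : ℕ) (i : Port Q) : ℕ × Bool × Q := (bif i.1 then b else a, !i.1, i.2)
def outS (a b : ℕ) (o : Port Q) : ℕ × Bool × Q := (bif o.1 then b else a, o.1, o.2)

@[simp] theorem inS_false (a b : ℕ) (q : Q) : inS a b (false, q) = (a, true, q) := rfl
@[simp] theorem inS_true (a b : ℕ) (q : Q) : inS a b (true, q) = (b, false, q) := rfl
@[simp] theorem outS_false (a b : ℕ) (q : Q) : outS a b (false, q) = (a, false, q) := rfl
@[simp] theorem outS_true (a b : ℕ) (q : Q) : outS a b (true, q) = (b, true, q) := rfl

def Edge (l : List (Beh Q)) (x y : Node Q) : Prop :=
  ∃ (k : ℕ) (c : Beh Q) (i : Port Q) (o : Option (Port Q)),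
    l[k]? = some c ∧ c i o ∧ x = some (inS k (k+1) i) ∧ y = o.map (outS k (k+1))

abbrev Reach (l : List (Beh Q)) : Node Q → Node Q → Prop := ReflTransGen (Edge l)

def bb (l : List (Beh Q)) : Beh Q := fun i o =>
  Reach l (some (inS 0 l.length i)) (o.map (outS 0 l.length))

theorem Edge.mk' {l : List (Beh Q)} {k : ℕ} {c : Beh Q} (hk : l[k]? = some c) {i : Port Q}
    {o : Option (Port Q)} (h : c i o) :
    Edge l (some (inS k (k+1) i)) (o.map (outS k (k+1))) :=
  ⟨k, c, i, o, hk, h, rfl, rfl⟩

/-- shift of nodes -/
def shN (a : ℕ) : Node Q → Node Q := Option.map (fun x => (x.1 + a, x.2))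

@[simp] theorem shN_none (a : ℕ) : shN a (none : Node Q) = none := rfl
@[simp] theorem shN_some (a p : ℕ) (z : Bool × Q) : shN a (some (p, z)) = some (p + a, z) := rfl

theorem shN_inS (a k m : ℕ) (i : Port Q) :
    shN a (some (inS k m i)) = some (inS (k + a) (m + a) i) := by
  rcases i with ⟨_ | _, q⟩ <;> rfl

theorem shN_outS (a k m : ℕ) (o : Option (Port Q)) :
    shN a (o.map (outS k m)) = o.map (outS (k + a) (m + a)) := by
  rcases o with _ | ⟨_ | _, q⟩ <;> rfl

theorem Edge.shift {L u R : List (Beh Q)} {x y : Node Q} (h : Edge u x y) :
    Edge (L ++ u ++ R) (shN L.length x) (shN L.length y) := by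
  obtain ⟨k, c, i, o, hk, hc, rfl, rfl⟩ := h
  rw [shN_inS, shN_outS]
  have hk' : (L ++ u ++ R)[k + L.length]? = some c := by
    have hlt : k < u.length := by
      by_contra hcon
      rw [List.getElem?_eq_none (by omega)] at hk
      cases hk
    rw [List.append_assoc, List.getElem?_append_right (by omega)]
    have : k + L.length - L.length = k := by omega
    rw [this, List.getElem?_append_left hlt, hk]
  have := Edge.mk' hk' hc
  have e : k + L.length + 1 = k + 1 + L.length := by omega
  rw [e] at this
  exact this

theorem Reach.shift {L u R : List (Beh Q)} {x y : Node Q} (h : Reach u x y) :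
    Reach (L ++ u ++ R) (shN L.length x) (shN L.length y) := by
  induction h with
  | refl => exact ReflTransGen.refl
  | tail _ hbc ih => exact ih.tail hbc.shift

/-- embedding of coarse nodes into fine nodes -/
def emb (a m : ℕ) : Node Q → Node Q :=
  Option.map (fun x => (if x.1 ≤ a then x.1 else x.1 + m, x.2))

@[simp] theorem emb_none (a m : ℕ) : emb a m (none : Node Q) = none := rfl
@[simp] theorem emb_some (a m p : ℕ) (z : Bool × Q) :
    emb a m (some (p, z)) = some (if p ≤ a then p else p + m, z) := rfl

theorem emb_inj (a m : ℕ) : Function.Injective (emb a m : Node Q → Node Q) := by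
  rintro (_ | ⟨p, z⟩) (_ | ⟨p', z'⟩) h
  · rfl
  · simp at h
  · simp at h
  · simp only [emb_some, Option.some.injEq, Prod.mk.injEq] at h ⊢
    obtain ⟨h1, h2⟩ := h
    refine ⟨?_, h2⟩
    split_ifs at h1 <;> omega

theorem lt_of_get? {α : Type*} {l : List α} {k : ℕ} {c : α} (h : l[k]? = some c) :
    k < l.length := by
  by_contra hcon
  rw [List.getElem?_eq_none (by omega)] at h
  cases h

theorem merge_edge {L u R : List (Beh Q)} {m : ℕ} (hm : u.length = m + 1) {x y : Node Q}
    (h : Edge (L ++ [bb u] ++ R) x y) :
    Reach (L ++ u ++ R) (emb L.length m x) (emb L.length m y) := by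
  obtain ⟨k, c, i, o, hk, hc, rfl, rfl⟩ := h
  rcases lt_trichotomy k L.length with hlt | heq | hgt
  · have hk' : (L ++ u ++ R)[k]? = some c := by
      rw [List.append_assoc, List.getElem?_append_left hlt] at hk ⊢
      exact hk
    have e1 : emb L.length m (some (inS k (k+1) i)) = some (inS k (k+1) i) := by
      rcases i with ⟨_ | _, q⟩ <;> simp <;> omega
    have e2 : emb L.length m (o.map (outS k (k+1))) = o.map (outS k (k+1)) := by
      rcases o with _ | ⟨_ | _, q⟩ <;> simp <;> omega
    rw [e1, e2]
    exact ReflTransGen.single (Edge.mk' hk' hc)
  · subst heq
    have hc' : c = bb u := by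
      rw [List.append_assoc, List.getElem?_append_right (le_refl _)] at hk
      simp at hk
      exact hk.symm
    subst hc'
    have := Reach.shift (L := L) (R := R) hc
    rw [shN_inS, shN_outS] at this
    have e1 : emb L.length m (some (inS L.length (L.length+1) i))
        = some (inS (0 + L.length) (u.length + L.length) i) := by
      rcases i with ⟨_ | _, q⟩ <;> simp <;> omega
    have e2 : emb L.length m (o.map (outS L.length (L.length+1)))
        = o.map (outS (0 + L.length) (u.length + L.length)) := by
      rcases o with _ | ⟨_ | _, q⟩ <;> simp <;> omega
    rw [e1, e2]
    exact this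
  · have hk' : (L ++ u ++ R)[k + m]? = some c := by
      rw [List.append_assoc, List.getElem?_append_right (by omega)] at hk ⊢
      rw [List.getElem?_append_right (by simp; omega)] at hk
      rw [List.getElem?_append_right (by omega)]
      rw [← hk]
      congr 1
      simp
      omega
    have e1 : emb L.length m (some (inS k (k+1) i)) = some (inS (k+m) (k+m+1) i) := by
      rcases i with ⟨_ | _, q⟩ <;> simp <;> (try split_ifs) <;> omega
    have e2 : emb L.length m (o.map (outS k (k+1))) = o.map (outS (k+m) (k+m+1)) := by
      rcases o with _ | ⟨_ | _, q⟩ <;> simp <;> (try split_ifs) <;> omega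
    rw [e1, e2]
    exact ReflTransGen.single (Edge.mk' hk' hc)

/-- target of a path is the start or an out-node -/
theorem reach_cases {l : List (Beh Q)} {x y : Node Q} (h : Reach l x y) :
    x = y ∨ ∃ (k : ℕ) (c : Beh Q) (o : Option (Port Q)), l[k]? = some c ∧ y = o.map (outS k (k+1)) := by
  rcases ReflTransGen.cases_tail h with h | ⟨z, _, k, c, i, o, hk, hc, _, rfl⟩
  · exact Or.inl h.symm
  · exact Or.inr ⟨k, c, o, hk, rfl⟩

/-- source of a nontrivial path is `some` of an in-node -/
theorem reach_cases_head {l : List (Beh Q)} {x y : Node Q} (h : Reach l x y) :
    x = y ∨ ∃ (k : ℕ) (c : Beh Q) (i : Port Q) (o : Option (Port Q)), l[k]? = some c ∧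
      x = some (inS k (k+1) i) ∧ c i o ∧ Reach l (o.map (outS k (k+1))) y := by
  rcases ReflTransGen.cases_head h with h | ⟨z, ⟨k, c, i, o, hk, hc, rfl, rfl⟩, h2⟩
  · exact Or.inl h
  · exact Or.inr ⟨k, c, i, o, hk, rfl, hc, h2⟩

theorem merge_inv {L u R : List (Beh Q)} {m : ℕ} (hm : u.length = m + 1) {x : Node Q} {z : Node Q}
    (h : Reach (L ++ u ++ R) (emb L.length m x) z) :
    (∃ y, z = emb L.length m y ∧ Reach (L ++ [bb u] ++ R) x y) ∨
    (∃ i, Reach (L ++ [bb u] ++ R) x (some (inS L.length (L.length + 1) i)) ∧
      ∃ z', z = shN L.length z' ∧ Reach u (some (inS 0 u.length i)) z') := by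
  induction h with
  | refl => exact Or.inl ⟨x, rfl, ReflTransGen.refl⟩
  | @tail z z2 _ hzz ih =>
    obtain ⟨k, c, i, o, hk, hc, hz, rfl⟩ := hzz
    rcases lt_or_ge k L.length with hlt | hge
    · -- edge in L
      have hk' : (L ++ [bb u] ++ R)[k]? = some c := by
        rw [List.append_assoc, List.getElem?_append_left hlt] at hk ⊢
        exact hk
      have key : Reach (L ++ [bb u] ++ R) x (some (inS k (k+1) i)) := by
        rcases ih with ⟨y, hy, hxy⟩ | ⟨j, hxj, z', hz', huz⟩
        · have : y = some (inS k (k+1) i) := by
            apply emb_inj L.length m
            rw [← hy, hz]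
            rcases i with ⟨_ | _, q⟩ <;> simp <;> omega
          rw [← this]; exact hxy
        · -- z = shift of z'
          rcases i with ⟨_ | _, q⟩
          · exfalso
            rw [hz] at hz'
            rcases z' with _ | ⟨p', d', q'⟩
            · simp at hz'
            · simp at hz'
              omega
          · rw [hz] at hz'
            rcases z' with _ | ⟨p', d', q'⟩
            · simp at hz'
            · simp at hz'
              obtain ⟨h1, rfl, rfl⟩ := hz'
              have hp : p' = 0 := by omega
              subst hp
              have hk1 : k + 1 = L.length := by omega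
              have hbu : bb u j (some (false, q)) := huz
              have hedge : Edge (L ++ [bb u] ++ R) (some (inS L.length (L.length + 1) j))
                  ((some (false, q)).map (outS L.length (L.length+1))) := by
                apply Edge.mk' _ hbu
                rw [List.append_assoc, List.getElem?_append_right (le_refl _)]
                simp
              have := hxj.tail hedge
              simp only [Option.map_some, outS_false] at this
              simp only [inS_true]
              rw [hk1]
              exact this
      refine Or.inl ⟨o.map (outS k (k+1)), ?_, key.tail (Edge.mk' hk' hc)⟩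
      rcases o with _ | ⟨_ | _, q⟩ <;> simp <;> omega
    · rcases lt_or_ge k (L.length + u.length) with hlt2 | hge2
      · -- edge in u
        have hku : u[k - L.length]? = some c := by
          rw [List.append_assoc, List.getElem?_append_right hge,
            List.getElem?_append_left (by omega)] at hk
          exact hk
        have key : ∃ j, Reach (L ++ [bb u] ++ R) x (some (inS L.length (L.length + 1) j)) ∧
            Reach u (some (inS 0 u.length j)) (some (inS (k - L.length) (k - L.length + 1) i)) := by
          rcases ih with ⟨y, hy, hxy⟩ | ⟨j, hxj, z', hz', huz⟩
          · rw [hz] at hy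
            rcases y with _ | ⟨p, d, q'⟩
            · simp at hy
            · rcases i with ⟨_ | _, q⟩
              · simp at hy
                obtain ⟨h1, rfl, rfl⟩ := hy
                split_ifs at h1 with hp
                · have : p = L.length := by omega
                  have hk0 : k = L.length := by omega
                  subst this; subst hk0
                  refine ⟨(false, q), hxy, ?_⟩
                  simp only [inS_false, Nat.sub_self]
                  exact ReflTransGen.refl
                · omega
              · simp at hy
                obtain ⟨h1, rfl, rfl⟩ := hy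
                split_ifs at h1 with hp
                · omega
                · have : p = L.length + 1 := by omega
                  subst this
                  refine ⟨(true, q), hxy, ?_⟩
                  simp only [inS_true]
                  have e : k - L.length + 1 = u.length := by omega
                  rw [e]
          · refine ⟨j, hxj, ?_⟩
            rw [hz] at hz'
            rcases z' with _ | ⟨p', d', q'⟩
            · simp at hz'
            · have : (p', d', q') = inS (k - L.length) (k - L.length + 1) i := by
                rcases i with ⟨_ | _, q⟩
                · simp at hz' ⊢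
                  obtain ⟨h1, rfl, rfl⟩ := hz'
                  exact ⟨by omega, rfl, rfl⟩
                · simp at hz' ⊢
                  obtain ⟨h1, rfl, rfl⟩ := hz'
                  exact ⟨by omega, rfl, rfl⟩
              rw [← this]; exact huz
        obtain ⟨j, hxj, huz⟩ := key
        refine Or.inr ⟨j, hxj, o.map (outS (k - L.length) (k - L.length + 1)), ?_,
          huz.tail (Edge.mk' hku hc)⟩
        rw [shN_outS]
        have e1 : k - L.length + L.length = k := by omega
        have e2 : k - L.length + 1 + L.length = k + 1 := by omega
        rw [e1, e2]
      · -- edge in R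
        have hk' : (L ++ [bb u] ++ R)[k - m]? = some c := by
          rw [List.append_assoc, List.getElem?_append_right hge] at hk
          rw [List.getElem?_append_right (by omega)] at hk
          rw [List.append_assoc, List.getElem?_append_right (by omega)]
          rw [List.getElem?_append_right (by simp; omega)]
          rw [← hk]
          congr 1
          simp
          omega
        have key : Reach (L ++ [bb u] ++ R) x (some (inS (k-m) (k-m+1) i)) := by
          rcases ih with ⟨y, hy, hxy⟩ | ⟨j, hxj, z', hz', huz⟩
          · have : y = some (inS (k-m) (k-m+1) i) := by
              apply emb_inj L.length m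
              rw [← hy, hz]
              rcases i with ⟨_ | _, q⟩ <;> simp <;> split_ifs <;> omega
            rw [← this]; exact hxy
          · rcases reach_cases huz with hst | ⟨k', c', o', hk', hz2⟩
            · -- start node of u
              subst hst
              rw [hz] at hz'
              rcases i with ⟨_ | _, q⟩ <;> rcases j with ⟨_ | _, q'⟩ <;> simp at hz'
              · omega
              · omega
            · have hk'lt := lt_of_get? hk'
              rw [hz] at hz'
              subst hz2
              rw [shN_outS] at hz'
              rcases i with ⟨_ | _, q⟩
              · rcases o' with _ | ⟨_ | _, q'⟩ <;> simp at hz'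
                obtain ⟨h1, rfl⟩ := hz'
                have hk1 : k' + 1 = u.length := by omega
                have hbu : bb u j (some (true, q)) := by
                  have := huz
                  simp only [Option.map_some, outS_true, hk1] at this
                  exact this
                have hedge : Edge (L ++ [bb u] ++ R) (some (inS L.length (L.length + 1) j))
                    ((some (true, q)).map (outS L.length (L.length+1))) := by
                  apply Edge.mk' _ hbu
                  rw [List.append_assoc, List.getElem?_append_right (le_refl _)]
                  simp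
                have := hxj.tail hedge
                simp only [Option.map_some, outS_true] at this
                simp only [inS_false]
                have e : k - m = L.length + 1 := by omega
                rw [e]
                exact this
              · rcases o' with _ | ⟨_ | _, q'⟩ <;> simp at hz'
                omega
        refine Or.inl ⟨o.map (outS (k-m) (k-m+1)), ?_, key.tail (Edge.mk' hk' hc)⟩
        rcases o with _ | ⟨_ | _, q⟩ <;> simp <;> (try split_ifs) <;> omega

theorem merge {L u R : List (Beh Q)} {m : ℕ} (hm : u.length = m + 1) (x y : Node Q) :
    Reach (L ++ u ++ R) (emb L.length m x) (emb L.length m y) ↔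
      Reach (L ++ [bb u] ++ R) x y := by
  constructor
  · intro h
    rcases merge_inv hm h with ⟨y', hy', hxy⟩ | ⟨j, hxj, z', hz', huz⟩
    · rw [emb_inj _ _ hy']; exact hxy
    · -- target inside u
      rcases reach_cases huz with hst | ⟨k', c', o', hk', hz2⟩
      · subst hst
        rw [shN_inS] at hz'
        have : y = some (inS L.length (L.length + 1) j) := by
          apply emb_inj L.length m
          rw [hz']
          rcases j with ⟨_ | _, q⟩ <;> simp <;> omega
        rw [this]; exact hxj
      · have hk'lt := lt_of_get? hk'
        have hbu : ∃ o, bb u j o ∧ y = o.map (outS L.length (L.length + 1)) := by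
          subst hz2
          rcases o' with _ | ⟨_ | _, q'⟩
          · refine ⟨none, huz, ?_⟩
            rcases y with _ | ⟨p, d, q⟩
            · rfl
            · simp at hz'
          · rcases y with _ | ⟨p, d, q⟩
            · simp at hz'
            · simp at hz'
              obtain ⟨h1, rfl, rfl⟩ := hz'
              split_ifs at h1 with hp
              · have hk0 : k' = 0 := by omega
                subst hk0
                refine ⟨some (false, q), huz, ?_⟩
                simp
                omega
              · omega
          · rcases y with _ | ⟨p, d, q⟩
            · simp at hz'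
            · simp at hz'
              obtain ⟨h1, rfl, rfl⟩ := hz'
              split_ifs at h1 with hp
              · omega
              · have hk0 : k' + 1 = u.length := by omega
                refine ⟨some (true, q), ?_, ?_⟩
                · have := huz
                  simp only [Option.map_some, outS_true, hk0] at this
                  exact this
                · simp
                  omega
        obtain ⟨o, hb, rfl⟩ := hbu
        refine hxj.tail (Edge.mk' ?_ hb)
        rw [List.append_assoc, List.getElem?_append_right (le_refl _)]
        simp
  · intro h
    induction h with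
    | refl => exact ReflTransGen.refl
    | tail _ hbc ih => exact ih.trans (merge_edge hm hbc)

end Crest.Agent.H9
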