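import Crest.Agent.H9.Cls

set_option autoImplicit false

namespace Crest.Agent.H9

open Relation

variable {Q : Type*}

/-- a family of rectangles bounding the difference of two behaviours -/
structure DefS (S : Set (Set (Port Q) × Set (Option (Port Q)))) (a b : Beh Q) : Prop where
  sub : ∀ p ∈ S, ∀ i ∈ p.1, ∀ o ∈ p.2, a i o
  cov : ∀ i o, a i o → b i o ∨ ∃ p ∈ S, i ∈ p.1 ∧ o ∈ p.2

open Classical in
/-- evaluation of template cells -/
noncomputable def ev (a b : Beh Q) (P : Set ℕ) : Beh Q ⊕ ℕ → Beh Q :=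
  fun c => c.elim id (fun s => if s ∈ P then b else a)

@[simp] theorem ev_inl (a b : Beh Q) (P : Set ℕ) (c : Beh Q) : ev a b P (Sum.inl c) = c := rfl
theorem ev_inr_mem {a b : Beh Q} {P : Set ℕ} {s : ℕ} (h : s ∈ P) :
    ev a b P (Sum.inr s) = b := by simp [ev, h]
theorem ev_inr_not_mem {a b : Beh Q} {P : Set ℕ} {s : ℕ} (h : s ∉ P) :
    ev a b P (Sum.inr s) = a := by simp [ev, h]

theorem use_lemma {S : Set (Set (Port Q) × Set (Option (Port Q)))} {a b : Beh Q}
    (hd : DefS S a b) (P : Set ℕ) (T : List (Beh Q ⊕ ℕ)) {x y : Node Q}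
    (h : Reach (T.map (ev a b ∅)) x y) :
    Reach (T.map (ev a b P)) x y ∨
    ∃ r s p i o, T[r]? = some (Sum.inr s) ∧ p ∈ S ∧ i ∈ p.1 ∧ o ∈ p.2 ∧
      Reach (T.map (ev a b ∅)) x (some (inS r (r+1) i)) ∧
      Reach (T.map (ev a b ∅)) (o.map (outS r (r+1))) y := by
  induction h using ReflTransGen.head_induction_on with
  | refl => exact Or.inl ReflTransGen.refl
  | @head x z hxz hzy ih =>
    rcases ih with ih | ⟨r, s, p, i, o, h1, h2, h3, h4, h5, h6⟩
    · obtain ⟨k, c, i, o, hk, hc, rfl, rfl⟩ := hxz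
      rw [List.getElem?_map] at hk
      rcases hT : T[k]? with _ | t
      · rw [hT] at hk; simp at hk
      · rw [hT] at hk
        simp only [Option.map_some, Option.some.injEq] at hk
        have mk : ∀ c', ev a b P t = c' → c' i o →
            Reach (T.map (ev a b P)) (some (inS k (k+1) i)) y := by
          intro c' hc' hio
          refine ReflTransGen.head (Edge.mk' (k := k) (c := c') ?_ hio) ih
          rw [List.getElem?_map, hT, ← hc']
          rfl
        rcases t with t | s
        · left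
          exact mk t rfl (by rw [ev_inl] at hk; rw [hk]; exact hc)
        · rw [ev_inr_not_mem (by simp)] at hk
          subst hk
          by_cases hs : s ∈ P
          · rcases hd.cov i o hc with hb | ⟨p, hp, hi, ho⟩
            · left
              exact mk b (ev_inr_mem hs) hb
            · right
              exact ⟨k, s, p, i, o, hT, hp, hi, ho, ReflTransGen.refl, hzy⟩
          · left
            exact mk a (ev_inr_not_mem hs) hc
    · exact Or.inr ⟨r, s, p, i, o, h1, h2, h3, h4, ReflTransGen.head hxz h5, h6⟩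

def slotset {α : Type*} (T : List (α ⊕ ℕ)) : Set ℕ := {r | ∃ s, T[r]? = some (Sum.inr s)}

theorem slotset_finite {α : Type*} (T : List (α ⊕ ℕ)) : (slotset T).Finite := by
  apply (Set.finite_lt_nat T.length).subset
  rintro r ⟨s, hs⟩
  exact lt_of_get? hs

theorem slotset_ncard {α : Type*} (T : List (α ⊕ ℕ)) :
    (slotset T).ncard ≤ T.countP Sum.isRight := by
  induction T with
  | nil =>
    have : slotset ([] : List (α ⊕ ℕ)) = ∅ := by
      ext r; simp [slotset]
    rw [this]; simp
  | cons c T ih =>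
    have hsub : slotset (c :: T) ⊆ (if c.isRight then {0} else ∅) ∪ Nat.succ '' slotset T := by
      rintro r ⟨s, hs⟩
      rcases r with _ | r
      · left
        simp at hs
        subst hs
        simp
      · right
        exact ⟨r, ⟨s, by simpa using hs⟩, rfl⟩
    have hfin : ((if c.isRight then {0} else ∅ : Set ℕ) ∪ Nat.succ '' slotset T).Finite := by
      apply Set.Finite.union
      · split_ifs <;> simp
      · exact (slotset_finite T).image _
    refine (Set.ncard_le_ncard hsub hfin).trans ((Set.ncard_union_le _ _).trans ?_)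
    rw [List.countP_cons]
    have h1 : (Nat.succ '' slotset T).ncard ≤ (slotset T).ncard :=
      Set.ncard_image_le (slotset_finite T)
    have h2 : (if c.isRight then {0} else ∅ : Set ℕ).ncard ≤ if c.isRight = true then 1 else 0 := by
      split_ifs <;> simp
    omega

theorem capacity [Finite Q] {S : Set (Set (Port Q) × Set (Option (Port Q)))} {a b e : Beh Q}
    (hd : DefS S a b) {L : List (Beh Q ⊕ ℕ)} (hne : L ≠ [])
    (hL : bb (L.map (ev a b ∅)) = e) (he : e * e = e) (pats : Set (Set ℕ)) :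
    {E | E ∈ KK e ∧ ∃ P ∈ pats, ¬ pass e (bb (L.map (ev a b P))) E}.ncard
      ≤ L.countP Sum.isRight * S.ncard := by
  classical
  obtain ⟨m, hm⟩ : ∃ m, L.length = m + 1 := by
    rcases L with _ | ⟨c, L⟩
    · exact absurd rfl hne
    · exact ⟨L.length, rfl⟩
  set T : List (Beh Q ⊕ ℕ) := [Sum.inl e] ++ L ++ [Sum.inl e] with hT
  have hTm : ∀ P : Set ℕ, T.map (ev a b P) = [e] ++ L.map (ev a b P) ++ [e] := by
    intro P; simp [hT]
  have hconv : ∀ (P : Set ℕ) (x y : Q), Reach (T.map (ev a b P)) (At 1 x) (At (1 + L.length) y) ↔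
      al e (bb (L.map (ev a b P))) e x y := by
    intro P x y
    have := merge (L := [e]) (u := L.map (ev a b P)) (R := [e]) (m := m) (by simpa using hm)
      (At 1 x) (At 2 y)
    rw [hTm P]
    have e1 : emb [e].length m (At 1 x) = At 1 x := by simp
    have e2 : emb [e].length m (At 2 y) = At (1 + L.length) y := by simp; omega
    rw [e1, e2] at this
    exact this
  have huse : ∀ E : Set Q, ∃ d : ℕ × (Set (Port Q) × Set (Option (Port Q))),
      E ∈ {E | E ∈ KK e ∧ ∃ P ∈ pats, ¬ pass e (bb (L.map (ev a b P))) E} →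
      d.1 ∈ slotset T ∧ d.2 ∈ S ∧ ∃ q i o, rel e q q ∧ E = cls e q ∧ i ∈ d.2.1 ∧ o ∈ d.2.2 ∧
        Reach (T.map (ev a b ∅)) (At 1 q) (some (inS d.1 (d.1+1) i)) ∧
        Reach (T.map (ev a b ∅)) (o.map (outS d.1 (d.1+1))) (At (1 + L.length) q) := by
    intro E
    by_cases hE : E ∈ {E | E ∈ KK e ∧ ∃ P ∈ pats, ¬ pass e (bb (L.map (ev a b P))) E}
    · obtain ⟨⟨q, hq, rfl⟩, P, hP, hnp⟩ := hE
      have hr : Reach (T.map (ev a b ∅)) (At 1 q) (At (1 + L.length) q) := by
        rw [hconv, hL]; exact hq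
      rcases use_lemma hd P T hr with h | ⟨r, s, p, i, o, h1, h2, h3, h4, h5, h6⟩
      · exfalso
        rw [hconv] at h
        exact hnp ⟨q, mem_cls_self hq, q, mem_cls_self hq, h⟩
      · exact ⟨(r, p), fun _ => ⟨⟨s, h1⟩, h2, q, i, o, hq, rfl, h3, h4, h5, h6⟩⟩
    · exact ⟨(0, (∅, ∅)), fun h => absurd h hE⟩
  choose d hdd using huse
  have hle := Set.ncard_le_ncard_of_injOn
    (s := {E | E ∈ KK e ∧ ∃ P ∈ pats, ¬ pass e (bb (L.map (ev a b P))) E})
    (t := slotset T ×ˢ S) d (by
      intro E hE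
      obtain ⟨h1, h2, _⟩ := hdd E hE
      exact ⟨h1, h2⟩) (by
      intro E hE E' hE' hEE
      obtain ⟨h1, h2, q, i, o, hq, hEq, h3, h4, h5, h6⟩ := hdd E hE
      obtain ⟨h1', h2', q', i', o', hq', hEq', h3', h4', h5', h6'⟩ := hdd E' hE'
      rw [← hEE] at h1' h2' h3' h4' h5' h6'
      obtain ⟨s, hs⟩ := h1
      have hcell : (T.map (ev a b ∅))[(d E).1]? = some a := by
        rw [List.getElem?_map, hs]
        simp [ev]
      have c1 : rel e q q' := by
        have : Reach (T.map (ev a b ∅)) (At 1 q) (At (1 + L.length) q') :=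
          (h5.tail (Edge.mk' hcell (hd.sub _ h2 i h3 o' h4'))).trans h6'
        rw [hconv, hL] at this
        exact this
      have c2 : rel e q' q := by
        have : Reach (T.map (ev a b ∅)) (At 1 q') (At (1 + L.length) q) :=
          (h5'.tail (Edge.mk' hcell (hd.sub _ h2 i' h3' o h4))).trans h6
        rw [hconv, hL] at this
        exact this
      rw [hEq, hEq']
      exact cls_eq he (r := q') ⟨c1, c2⟩ (mem_cls_self hq'))
      ((slotset_finite T).prod (Set.toFinite _))
  rw [Set.ncard_prod] at hle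
  refine hle.trans (Nat.mul_le_mul_right _ ?_)
  refine (slotset_ncard T).trans ?_
  simp [hT, List.countP_append]

/-- sub-semigroup generated -/
inductive Gen (G : Set (Beh Q)) : Beh Q → Prop
  | base (g : Beh Q) (h : g ∈ G) : Gen G g
  | mul (x y : Beh Q) (hx : Gen G x) (hy : Gen G y) : Gen G (x * y)

theorem gen_pass {e : Beh Q} (he : e * e = e) {G : Set (Beh Q)}
    (hG : ∀ g ∈ G, e * g = g ∧ g * e = g) {E : Set Q} (hE : E ∈ KK e)
    (hp : ∀ g ∈ G, pass e g E) {x : Beh Q} (hx : Gen G x) :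
    e * x = x ∧ x * e = x ∧ pass e x E := by
  induction hx with
  | base g h => exact ⟨(hG g h).1, (hG g h).2, hp g h⟩
  | mul x y _ _ ihx ihy =>
    refine ⟨by rw [← mul_assoc, ihx.1], by rw [mul_assoc, ihy.2.1], ?_⟩
    exact pass_mul he ihx.2.1 ihx.1 ihy.1 hE ihx.2.2 ihy.2.2

theorem VV_zero [Finite Q] {S : Set (Set (Port Q) × Set (Option (Port Q)))} {a b : Beh Q}
    (hd : DefS S a b) {f : ℕ → Beh Q} {n : ℕ} (hc : Chain f n)
    {L : List (Beh Q ⊕ ℕ)} (hne : L ≠ [])
    (hL : bb (L.map (ev a b ∅)) = f 0) (pats : Set (Set ℕ))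
    (habs : ∀ P ∈ pats, f 0 * bb (L.map (ev a b P)) = bb (L.map (ev a b P)) ∧
      bb (L.map (ev a b P)) * f 0 = bb (L.map (ev a b P)))
    (hgen : ∀ j, j ≤ n → Gen {g | ∃ P ∈ pats, g = bb (L.map (ev a b P))} (f j)) :
    (VV f n 0).ncard ≤ L.countP Sum.isRight * S.ncard := by
  have he := hc.idem 0 (Nat.zero_le _)
  refine (Set.ncard_le_ncard ?_ (Set.toFinite _)).trans (capacity hd hne hL he pats)
  rintro E ⟨hE, j, _, hj, hnp⟩
  refine ⟨hE, ?_⟩
  by_contra hcon
  push Not at hcon
  apply hnp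
  refine (gen_pass he ?_ hE ?_ (hgen j hj)).2.2
  · rintro g ⟨P, hP, rfl⟩
    exact habs P hP
  · rintro g ⟨P, hP, rfl⟩
    exact hcon P hP

/-- mirror -/
def mp (i : Port Q) : Port Q := (!i.1, i.2)
def mo : Option (Port Q) → Option (Port Q) := Option.map mp
def mir (a : Beh Q) : Beh Q := fun i o => a (mp i) (mo o)

@[simp] theorem mp_mp (i : Port Q) : mp (mp i) = i := by rcases i with ⟨_ | _, q⟩ <;> rfl
@[simp] theorem mo_mo (o : Option (Port Q)) : mo (mo o) = o := by
  rcases o with _ | ⟨_ | _, q⟩ <;> rfl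
@[simp] theorem mir_mir (a : Beh Q) : mir (mir a) = a := by
  funext i o; simp [mir]

def mn (n : ℕ) : Node Q → Node Q := Option.map (fun x => (n - x.1, !x.2.1, x.2.2))

theorem mn_inS {n k m : ℕ} (i : Port Q) :
    mn n (some (inS k m i)) = some (inS (n - m) (n - k) (mp i)) := by
  rcases i with ⟨_ | _, q⟩ <;> simp [mn, mp, inS]

theorem mn_outS {n k m : ℕ} (o : Option (Port Q)) :
    mn n (o.map (outS k m)) = (mo o).map (outS (n - m) (n - k)) := by
  rcases o with _ | ⟨_ | _, q⟩ <;> simp [mn, mo, mp, outS]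

theorem Edge.mirror {l : List (Beh Q)} {x y : Node Q} (h : Edge l x y) :
    Edge (l.map mir).reverse (mn l.length x) (mn l.length y) := by
  obtain ⟨k, c, i, o, hk, hc, rfl, rfl⟩ := h
  have hlt := lt_of_get? hk
  rw [mn_inS, mn_outS]
  have hk' : (l.map mir).reverse[l.length - (k+1)]? = some (mir c) := by
    rw [List.getElem?_reverse (by simp; omega)]
    rw [List.getElem?_map]
    have : (l.map mir).length - 1 - (l.length - (k+1)) = k := by simp; omega
    rw [this, hk]
    rfl
  have hio : mir c (mp i) (mo o) := by simpa [mir] using hc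
  have := Edge.mk' hk' hio
  have e : l.length - (k + 1) + 1 = l.length - k := by omega
  rw [e] at this
  exact this

theorem bb_mirror_le {l : List (Beh Q)} {i : Port Q} {o : Option (Port Q)} (h : bb l i o) :
    bb (l.map mir).reverse (mp i) (mo o) := by
  have key : ∀ x y, Reach l x y → Reach (l.map mir).reverse (mn l.length x) (mn l.length y) := by
    intro x y h
    induction h with
    | refl => exact ReflTransGen.refl
    | tail _ hbc ih => exact ih.tail hbc.mirror
  have := key _ _ h
  rw [mn_inS, mn_outS] at this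
  unfold bb
  simpa using this

theorem bb_mirror (l : List (Beh Q)) : bb (l.map mir).reverse = mir (bb l) := by
  apply Beh.ext'
  intro i o
  constructor
  · intro h
    have := bb_mirror_le h
    have e : ((l.map mir).reverse.map mir).reverse = l := by
      rw [← List.map_reverse, List.reverse_reverse, List.map_map]
      conv_rhs => rw [← List.map_id l]
      congr 1
      funext x
      simp
    rw [e] at this
    exact this
  · intro h
    have := bb_mirror_le (l := l) (i := mp i) (o := mo o) h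
    simpa using this

theorem mir_mul (a b : Beh Q) : mir (a * b) = mir b * mir a := by
  exact (bb_mirror [a, b]).symm

theorem Chain.mirror {f : ℕ → Beh Q} {n : ℕ} (hc : Chain f n) : Chain (fun i => mir (f i)) n where
  idem i hi := by rw [← mir_mul, hc.idem i hi]
  left i hi := by rw [← mir_mul, hc.right i hi]
  right i hi := by rw [← mir_mul, hc.left i hi]

def mirT (L : List (Beh Q ⊕ ℕ)) : List (Beh Q ⊕ ℕ) := (L.map (Sum.map mir id)).reverse

theorem mirT_ev (a b : Beh Q) (P : Set ℕ) (L : List (Beh Q ⊕ ℕ)) :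
    (mirT L).map (ev (mir a) (mir b) P) = ((L.map (ev a b P)).map mir).reverse := by
  rw [mirT, List.map_reverse, List.map_map, List.map_map]
  congr 2
  funext c
  rcases c with c | s
  · rfl
  · by_cases hs : s ∈ P
    · simp [ev, hs]
    · simp [ev, hs]

theorem mirT_bb (a b : Beh Q) (P : Set ℕ) (L : List (Beh Q ⊕ ℕ)) :
    bb ((mirT L).map (ev (mir a) (mir b) P)) = mir (bb (L.map (ev a b P))) := by
  rw [mirT_ev, bb_mirror]

theorem mirT_count (L : List (Beh Q ⊕ ℕ)) :
    (mirT L).countP Sum.isRight = L.countP Sum.isRight := by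
  rw [mirT, List.countP_reverse, List.countP_map]
  congr 1
  funext c
  rcases c with c | s <;> rfl

def mirS (S : Set (Set (Port Q) × Set (Option (Port Q)))) :
    Set (Set (Port Q) × Set (Option (Port Q))) :=
  (fun p => (mp ⁻¹' p.1, mo ⁻¹' p.2)) '' S

theorem DefS.mirror {S : Set (Set (Port Q) × Set (Option (Port Q)))} {a b : Beh Q}
    (h : DefS S a b) : DefS (mirS S) (mir a) (mir b) where
  sub := by
    rintro _ ⟨p, hp, rfl⟩ i hi o ho
    exact h.sub p hp _ hi _ ho
  cov := by
    intro i o hio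
    rcases h.cov (mp i) (mo o) hio with h | ⟨p, hp, hi, ho⟩
    · exact Or.inl h
    · exact Or.inr ⟨_, ⟨p, hp, rfl⟩, hi, ho⟩

theorem Gen.mirror {G : Set (Beh Q)} {x : Beh Q} (h : Gen G x) : Gen (mir '' G) (mir x) := by
  induction h with
  | base g h => exact Gen.base _ ⟨g, h, rfl⟩
  | mul x y _ _ ihx ihy =>
    rw [mir_mul]
    exact Gen.mul _ _ ihy ihx

theorem left_first {A B : Beh Q} {x : Q} {o : Option (Port Q)} (h : (A * B) (false, x) o) :
    ∃ o', A (false, x) o' := by
  have h' : Reach [A, B] (At 0 x) (o.map (outS 0 2)) := h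
  rcases reach_cases_head h' with h | ⟨k, c, i, o', hk, hi, hc, h2⟩
  · rcases o with _ | ⟨_ | _, q⟩ <;> simp at h
  · rcases i with ⟨_ | _, q⟩
    · simp at hi
      obtain ⟨rfl, rfl⟩ := hi
      simp at hk
      subst hk
      exact ⟨_, hc⟩
    · simp at hi

theorem left_stay {A B : Beh Q} {x : Q} {o : Option (Port Q)} (h : A (false, x) o)
    (ho : ∀ y, o ≠ some (true, y)) : (A * B) (false, x) o := by
  have h' : Reach [A, B] (At 0 x) (o.map (outS 0 2)) := by
    have := Edge.mk' (l := [A, B]) (k := 0) rfl h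
    have e : o.map (outS 0 2) = o.map (outS 0 (0+1)) := by
      rcases o with _ | ⟨_ | _, q⟩
      · rfl
      · rfl
      · exact absurd rfl (ho q)
    rw [e]
    exact ReflTransGen.single this
  exact h'

theorem half_cover [Finite Q] {f g : Beh Q} (hf : f * f = f) (hfg : f * g = g) (hgf : g * f = g)
    {x : Q} {o : Option (Port Q)} (h : f (false, x) o) :
    g (false, x) o ∨ ∃ E ∈ KK f, ¬ pass f g E ∧ (false, x) ∈ recI f E ∧ o ∈ recO f E := by
  by_cases ho : ∃ y, o = some (true, y)
  · obtain ⟨y, rfl⟩ := ho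
    obtain ⟨E, hE, hI, hO⟩ := rec_cover hf h
    by_cases hp : pass f g E
    · left
      obtain ⟨q, hq, hEq⟩ := hE
      exact rec_sub hf hfg hgf hEq hp hI hO
    · exact Or.inr ⟨E, hE, hp, hI, hO⟩
  · left
    push Not at ho
    have := left_stay (B := g) h ho
    rwa [hfg] at this

theorem rec_in [Finite Q] {f : Beh Q} (hf : f * f = f) {E : Set Q} (hE : E ∈ KK f)
    {i : Port Q} {o : Option (Port Q)} (hi : i ∈ recI f E) (ho : o ∈ recO f E) : f i o := by
  have hp := pass_self hE
  obtain ⟨q, hq, hEq⟩ := hE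
  exact rec_sub hf hf hf hEq hp hi ho

theorem level [Finite Q] {S : Set (Set (Port Q) × Set (Option (Port Q)))} {a b : Beh Q}
    (hd : DefS S a b) {f : ℕ → Beh Q} {n : ℕ} (hc : Chain f n)
    {L : List (Beh Q ⊕ ℕ)} (hne : L ≠ [])
    (hL : bb (L.map (ev a b ∅)) = f 0) (pats : Set (Set ℕ))
    (habs : ∀ P ∈ pats, f 0 * bb (L.map (ev a b P)) = bb (L.map (ev a b P)) ∧
      bb (L.map (ev a b P)) * f 0 = bb (L.map (ev a b P)))
    (hgen : ∀ j, j ≤ n → Gen {g | ∃ P ∈ pats, g = bb (L.map (ev a b P))} (f j)) :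
    ∃ S' : ℕ → Set (Set (Port Q) × Set (Option (Port Q))),
      (∀ i, i < n → DefS (S' i) (f i) (f (i+1))) ∧
      ∑ i ∈ Finset.range n, (S' i).ncard ≤ 4 * (L.countP Sum.isRight * S.ncard) := by
  let f' : ℕ → Beh Q := fun i => mir (f i)
  have hc' : Chain f' n := hc.mirror
  have h1 := sum_count hc
  have h2 := sum_count hc'
  have h3 := VV_zero hd hc hne hL pats habs hgen
  have hne' : mirT L ≠ [] := by
    intro h
    apply hne
    simpa [mirT] using h
  have h4 := VV_zero (S := mirS S) (a := mir a) (b := mir b) hd.mirror hc' hne'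
    (by rw [mirT_bb, hL]) pats (by
      intro P hP
      obtain ⟨p1, p2⟩ := habs P hP
      rw [mirT_bb]
      show mir (f 0) * _ = _ ∧ _ * mir (f 0) = _
      rw [← mir_mul, ← mir_mul, p1, p2]
      exact ⟨rfl, rfl⟩) (by
      intro j hj
      have := (hgen j hj).mirror
      have e : {g | ∃ P ∈ pats, g = bb ((mirT L).map (ev (mir a) (mir b) P))}
          = mir '' {g | ∃ P ∈ pats, g = bb (L.map (ev a b P))} := by
        ext g
        constructor
        · rintro ⟨P, hP, rfl⟩
          exact ⟨_, ⟨P, hP, rfl⟩, (mirT_bb a b P L).symm⟩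
        · rintro ⟨_, ⟨P, hP, rfl⟩, rfl⟩
          exact ⟨P, hP, (mirT_bb a b P L).symm⟩
      rw [e]
      exact this)
  rw [mirT_count] at h4
  have h5 : (mirS S).ncard ≤ S.ncard := Set.ncard_image_le (Set.toFinite _)
  refine ⟨fun i => (fun E => (recI (f i) E, recO (f i) E)) '' FF f i ∪
    (fun E => (mp ⁻¹' recI (f' i) E, mo ⁻¹' recO (f' i) E)) '' FF f' i, ?_, ?_⟩
  · intro i hi
    have hf := hc.idem i hi.le
    have hfg := hc.left i hi
    have hgf := hc.right i hi
    have hf' := hc'.idem i hi.le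
    have hfg' := hc'.left i hi
    have hgf' := hc'.right i hi
    constructor
    · rintro p (⟨E, hE, rfl⟩ | ⟨E, hE, rfl⟩) j hj o ho
      · exact rec_in hf hE.1 hj ho
      · have := rec_in hf' hE.1 hj ho
        have h6 : f i (mp (mp j)) (mo (mo o)) := this
        simpa using h6
    · intro j o hjo
      rcases j with ⟨_ | _, x⟩
      · rcases half_cover hf hfg hgf hjo with h | ⟨E, hE, hp, hI, hO⟩
        · exact Or.inl h
        · exact Or.inr ⟨_, Or.inl ⟨E, ⟨hE, hp⟩, rfl⟩, hI, hO⟩
      · have hjo' : f' i (false, x) (mo o) := by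
          show f i (mp (false, x)) (mo (mo o))
          rw [mo_mo]
          exact hjo
        rcases half_cover hf' hfg' hgf' hjo' with h | ⟨E, hE, hp, hI, hO⟩
        · left
          have h6 : f (i+1) (mp (false, x)) (mo (mo o)) := h
          rw [mo_mo] at h6
          exact h6
        · exact Or.inr ⟨_, Or.inr ⟨E, ⟨hE, hp⟩, rfl⟩, hI, hO⟩
  · have h6 : ∀ i, ((fun E => (recI (f i) E, recO (f i) E)) '' FF f i ∪
        (fun E => (mp ⁻¹' recI (f' i) E, mo ⁻¹' recO (f' i) E)) '' FF f' i).ncard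
          ≤ (FF f i).ncard + (FF f' i).ncard := by
      intro i
      refine (Set.ncard_union_le _ _).trans ?_
      gcongr
      · exact Set.ncard_image_le (Set.toFinite _)
      · exact Set.ncard_image_le (Set.toFinite _)
    have h7 : ∑ i ∈ Finset.range n, ((fun E => (recI (f i) E, recO (f i) E)) '' FF f i ∪
        (fun E => (mp ⁻¹' recI (f' i) E, mo ⁻¹' recO (f' i) E)) '' FF f' i).ncard ≤
        ∑ i ∈ Finset.range n, ((FF f i).ncard + (FF f' i).ncard) :=
      Finset.sum_le_sum fun i _ => h6 i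
    rw [Finset.sum_add_distrib] at h7
    have h8 : L.countP Sum.isRight * (mirS S).ncard ≤ L.countP Sum.isRight * S.ncard :=
      Nat.mul_le_mul_left _ h5
    refine h7.trans ?_
    omega

/-- domain monotonicity -/
theorem dom_mono {f g : Beh Q} (hfg : f * g = g) (hgf : g * f = g) {i : Port Q}
    {o : Option (Port Q)} (h : g i o) : ∃ o', f i o' := by
  rcases i with ⟨_ | _, x⟩
  · rw [← hfg] at h
    exact left_first h
  · have h1 : mir g (false, x) (mo o) := by
      show g (mp (false, x)) (mo (mo o))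
      rw [mo_mo]; exact h
    have h2 : mir f * mir g = mir g := by rw [← mir_mul, hgf]
    rw [← h2] at h1
    obtain ⟨o', ho'⟩ := left_first h1
    exact ⟨mo o', ho'⟩

end Crest.Agent.H9
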