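import Crest.Agent.H9.Alg

set_option autoImplicit false

namespace Crest.Agent.H9

open Relation

variable {Q : Type*}

def rel (f : Beh Q) (x y : Q) : Prop := al f f f x y
def cls (f : Beh Q) (q : Q) : Set Q := {r | rel f q r ∧ rel f r q}
def KK (f : Beh Q) : Set (Set Q) := {E | ∃ q, rel f q q ∧ E = cls f q}
def pass (f W : Beh Q) (E : Set Q) : Prop := ∃ x ∈ E, ∃ y ∈ E, al f W f x y

theorem rel_trans {f : Beh Q} (hf : f * f = f) {x y z : Q} (h1 : rel f x y) (h2 : rel f y z) :
    rel f x z := by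
  unfold rel at *
  have a1 : al f f (f * f) x y := by rw [hf]; exact h1
  have a2 : al (f * f) f f y z := by rw [hf]; exact h2
  have := al_comp a1 a2
  rwa [hf] at this

theorem eta_trans {e : Beh Q} (he : e * e = e) {x y z : Q} (h1 : eta e e x y) (h2 : eta e e y z) :
    eta e e x z := by
  have a1 : Reach [e, e, e] (At 1 x) (At 2 y) := by
    simpa using Reach.shift (L := []) (R := [e]) h1
  have a2 : Reach [e, e, e] (At 2 y) (At 3 z) := by
    simpa using Reach.shift (L := [e]) (R := []) h2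
  have a3 := a1.trans a2
  have := (merge2 [e] [] e e (At 1 x) (At 2 z)).1 (by simpa using a3)
  rw [he] at this
  exact this

theorem LR_eta {e : Beh Q} (he : e * e = e) {x y z : Q} (h1 : LR e x y) (h2 : eta e e y z) :
    LR e x z := by
  have := LR_of_mul h1 h2
  rwa [he] at this

theorem eta_rec [Finite Q] {e : Beh Q} (he : e * e = e) {x y : Q} (h : LR e x y) :
    ∃ q, LR e x q ∧ eta e e q q ∧ eta e e q y := by
  by_contra hcon
  push Not at hcon
  -- T : states q with LR e x q and eta q y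
  let T := {q : Q // LR e x q ∧ eta e e q y}
  let r : T → T → Prop := fun a b => eta e e a.1 b.1
  have : IsTrans T r := ⟨fun a b c h1 h2 => eta_trans he h1 h2⟩
  have : Std.Irrefl r := ⟨fun a h => hcon a.1 a.2.1 h a.2.2⟩
  have hwf : WellFounded r := Finite.wellFounded_of_trans_of_irrefl r
  have pred : ∀ q : Q, LR e x q → ∃ a, LR e x a ∧ eta e e a q := by
    intro q hq
    rw [← he] at hq
    exact LR_mul hq
  obtain ⟨a, ha1, ha2⟩ := pred y h
  obtain ⟨m, _, hm⟩ := hwf.has_min Set.univ ⟨⟨a, ha1, ha2⟩, trivial⟩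
  obtain ⟨b, hb1, hb2⟩ := pred m.1 m.2.1
  exact hm ⟨b, hb1, eta_trans he hb2 m.2.2⟩ trivial hb2

theorem mem_cls_self {f : Beh Q} {q : Q} (h : rel f q q) : q ∈ cls f q := ⟨h, h⟩

theorem cls_eq {f : Beh Q} (hf : f * f = f) {q q' r : Q} (h : r ∈ cls f q) (h' : r ∈ cls f q') :
    cls f q = cls f q' := by
  have h1 : rel f q q' := rel_trans hf h.1 h'.2
  have h2 : rel f q' q := rel_trans hf h'.1 h.2
  ext s
  constructor
  · rintro ⟨a, b⟩
    exact ⟨rel_trans hf h2 a, rel_trans hf b h1⟩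
  · rintro ⟨a, b⟩
    exact ⟨rel_trans hf h1 a, rel_trans hf b h2⟩

theorem cls_sub {e f : Beh Q} (hf : f * f = f) (hef : e * f = f) (hfe : f * e = f)
    {q0 qA : Q} (hA : qA ∈ cls f q0) : cls e qA ⊆ cls f q0 := by
  rintro r ⟨h1, h2⟩
  obtain ⟨a1, a2⟩ := hA
  unfold rel at *
  constructor
  · have b1 : al f f (e * f) q0 qA := by rw [hef]; exact a1
    have b2 : al (f * f) e f qA r := by
      rw [hf]
      have := al_envR f (al_envL f h1)
      rwa [hfe, hef] at this
    have := al_comp b1 b2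
    rwa [hfe] at this
  · have b1 : al f e (f * f) r qA := by
      rw [hf]
      have := al_envR f (al_envL f h2)
      rwa [hfe, hef] at this
    have b2 : al (f * e) f f qA q0 := by rw [hfe]; exact a2
    have := al_comp b1 b2
    rwa [hef] at this

theorem members [Finite Q] {e f : Beh Q} (he : e * e = e) (hf : f * f = f) (hef : e * f = f)
    (hfe : f * e = f) {q0 : Q} (h0 : rel f q0 q0) :
    ∃ qA qB, rel e qA qA ∧ rel e qB qB ∧ al e f e qA qB ∧ cls e qA ⊆ cls f q0 ∧
      cls e qB ⊆ cls f q0 := by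
  have h0' : al f f f q0 q0 := h0
  obtain ⟨x, y, hJ1, hxy, hJ2⟩ := al_factor h0'
  rw [hf] at hJ1 hJ2
  have hxy' : LR (e * (f * e)) x y := by rw [hfe, hef]; exact hxy
  obtain ⟨a, b, hxa, hab, hby⟩ := LR_mul3 hxy'
  obtain ⟨qA, hxA, hAA, hAa⟩ := eta_rec he hxa
  obtain ⟨qB, hbB, hBB, hBy⟩ := eta_rec he hby
  -- al e f e qA b
  have s1 : al e f e qA b := by
    have b1 : al e e (f * e) qA a := al_of_eta _ hAa
    have b2 : al (e * e) f e a b := by rw [he]; exact hab
    have := al_comp b1 b2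
    rwa [hef] at this
  have s2 : al e f e qA qB := by
    have b1 : al e f (e * e) qA b := by rw [he]; exact s1
    have b2 : al (e * f) e e b qB := al_of_LR _ _ hbB
    have := al_comp b1 b2
    rwa [hfe] at this
  -- rel f q0 qA
  have r1 : al f f f q0 qA := by
    have c1 : al f f f q0 x := J_al h0' (by rw [hf]; exact hJ1)
    have b1 : al f f (e * f) q0 x := by rw [hef]; exact c1
    have b2 : al (f * f) e f x qA := al_of_LR _ _ hxA
    have := al_comp b1 b2
    rwa [hfe] at this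
  have r2 : al f f f qA q0 := by
    have c1 : al f f f qA b := by
      have := al_envR f (al_envL f s1)
      rwa [hfe, hef] at this
    have c2 : al f f f qA y := by
      have b1 : al f f (e * f) qA b := by rw [hef]; exact c1
      have b2 : al (f * f) e f b y := al_of_LR _ _ hby
      have := al_comp b1 b2
      rwa [hfe] at this
    exact J_al c2 (by rw [hf]; exact hJ2)
  have r3 : al f f f q0 qB := by
    have c1 : al f f f x b := by
      have b1 : al f e (f * f) x a := al_of_LR _ _ hxa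
      have b2 : al (f * e) f f a b := by
        have := al_envR f (al_envL f hab)
        rw [hfe, hef] at this
        rw [hfe]
        exact this
      have := al_comp b1 b2
      rwa [hef] at this
    have c2 : al f f f x qB := by
      have b1 : al f f (e * f) x b := by rw [hef]; exact c1
      have b2 : al (f * f) e f b qB := al_of_LR _ _ hbB
      have := al_comp b1 b2
      rwa [hfe] at this
    exact al_J (by rw [hf]; exact hJ1) c2
  have r4 : al f f f qB q0 := by
    have c1 : al f e f qB y := by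
      have := eta_envL f hBy
      rw [hfe] at this
      exact al_of_eta f this
    have c2 : al f e f qB q0 := J_al c1 (by rw [hfe]; exact hJ2)
    have b1 : al f e (f * f) qB q0 := by rw [hf]; exact c2
    have b2 : al (f * e) f f q0 q0 := by rw [hfe]; exact h0'
    have := al_comp b1 b2
    rwa [hef] at this
  exact ⟨qA, qB, al_of_eta e hAA, al_of_eta e hBB, s2,
    cls_sub hf hef hfe ⟨r1, r2⟩, cls_sub hf hef hfe ⟨r3, r4⟩⟩

theorem pass_mono {e f W : Beh Q} (hef : e * f = f) (hfe : f * e = f) {T E : Set Q} (hTE : T ⊆ E)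
    (h : pass e W T) : pass f W E := by
  obtain ⟨x, hx, y, hy, hxy⟩ := h
  refine ⟨x, hTE hx, y, hTE hy, ?_⟩
  have := al_envR f (al_envL f hxy)
  rwa [hfe, hef] at this

theorem pass_mul {e W1 W2 : Beh Q} (he : e * e = e) (h1 : W1 * e = W1) (h1' : e * W1 = W1)
    (h2 : e * W2 = W2) {E : Set Q} (hE : E ∈ KK e) (p1 : pass e W1 E)
    (p2 : pass e W2 E) : pass e (W1 * W2) E := by
  obtain ⟨x1, hx1, y1, hy1, h11⟩ := p1
  obtain ⟨x2, hx2, y2, hy2, h22⟩ := p2
  obtain ⟨q, hq, rfl⟩ := hE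
  refine ⟨x1, hx1, y2, hy2, ?_⟩
  have r : al e e e y1 x2 := rel_trans he hy1.2 hx2.1
  have c1 : al e W1 e x1 x2 := by
    have b1 : al e W1 (e * e) x1 y1 := by rw [he]; exact h11
    have b2 : al (e * W1) e e y1 x2 := by
      have := al_envL W1 r
      rw [h1] at this
      rw [h1']
      exact this
    have := al_comp b1 b2
    rwa [h1] at this
  have b1 : al e W1 (W2 * e) x1 x2 := by
    have := al_envR (W2 * e) c1
    rwa [← mul_assoc, h2] at this
  have b2 : al (e * W1) W2 e x2 y2 := by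
    have := al_envL W1 h22
    rw [h1] at this
    rw [h1']
    exact this
  exact al_comp b1 b2

/-- counting lemma -/
theorem count_lemma {X Y : Type*} {A : Set Y} {B Fl : Set X} (hB : B.Finite)
    (hFl : Fl ⊆ B) (mem : X → Y → Prop)
    (hinj : ∀ t E E', E ∈ A → E' ∈ A → mem t E → mem t E' → E = E')
    (hA : ∀ E ∈ A, (∃ t ∈ B, t ∉ Fl ∧ mem t E) ∨
      (∃ t1 ∈ B, ∃ t2 ∈ B, t1 ≠ t2 ∧ mem t1 E ∧ mem t2 E)) :
    2 * A.ncard + Fl.ncard ≤ 2 * B.ncard := by
  classical
  rcases isEmpty_or_nonempty X with hX | ⟨⟨x0⟩⟩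
  · have hA0 : A = ∅ := by
      ext E
      simp only [Set.mem_empty_iff_false, iff_false]
      intro hE
      rcases hA E hE with ⟨t, _⟩ | ⟨t, _⟩
      · exact hX.elim t
      · exact hX.elim t
    have hF0 : Fl = ∅ := by
      ext x
      exact hX.elim x
    rw [hA0, hF0]
    simp
  have hch : ∀ E : Y, ∃ t : Bool → X ⊕ X, E ∈ A → (t false ≠ t true ∧
      ∀ b, (t b ∈ (Sum.inl '' B ∪ Sum.inr '' (B \ Fl) : Set (X ⊕ X))) ∧
        mem ((t b).elim id id) E) := by
    intro E
    by_cases hE : E ∈ A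
    · rcases hA E hE with ⟨t, htB, htF, hm⟩ | ⟨t1, h1, t2, h2, hne, hm1, hm2⟩
      · refine ⟨fun b => bif b then Sum.inr t else Sum.inl t, fun _ => ⟨by simp, ?_⟩⟩
        rintro (_ | _)
        · exact ⟨Or.inl ⟨t, htB, rfl⟩, hm⟩
        · exact ⟨Or.inr ⟨t, ⟨htB, htF⟩, rfl⟩, hm⟩
      · refine ⟨fun b => bif b then Sum.inl t2 else Sum.inl t1, fun _ => ⟨by simpa using hne, ?_⟩⟩
        rintro (_ | _)
        · exact ⟨Or.inl ⟨t1, h1, rfl⟩, hm1⟩
        · exact ⟨Or.inl ⟨t2, h2, rfl⟩, hm2⟩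
    · exact ⟨fun _ => Sum.inl x0, fun h => absurd h hE⟩
  choose t ht using hch
  have hfin : (Sum.inl '' B ∪ Sum.inr '' (B \ Fl) : Set (X ⊕ X)).Finite :=
    (hB.image _).union ((hB.subset Set.sdiff_subset).image _)
  have hle := Set.ncard_le_ncard_of_injOn (s := A ×ˢ (Set.univ : Set Bool))
    (t := (Sum.inl '' B ∪ Sum.inr '' (B \ Fl) : Set (X ⊕ X)))
    (fun p => t p.1 p.2) (by
      rintro ⟨E, b⟩ ⟨hE, _⟩
      exact ((ht E hE).2 b).1) (by
      rintro ⟨E, b⟩ ⟨hE, _⟩ ⟨E', b'⟩ ⟨hE', _⟩ heq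
      simp only at heq hE hE'
      have m1 := ((ht E hE).2 b).2
      have m2 := ((ht E' hE').2 b').2
      rw [← heq] at m2
      have hEE := hinj _ _ _ hE hE' m1 m2
      subst hEE
      have hne := (ht E hE).1
      rcases b with _ | _ <;> rcases b' with _ | _
      · rfl
      · exact absurd heq hne
      · exact absurd heq.symm hne
      · rfl) hfin
  rw [Set.ncard_prod] at hle
  have h1 : (Set.univ : Set Bool).ncard = 2 := by simp
  have h2 : (Sum.inl '' B ∪ Sum.inr '' (B \ Fl) : Set (X ⊕ X)).ncard ≤ B.ncard + (B \ Fl).ncard := by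
    refine (Set.ncard_union_le _ _).trans ?_
    gcongr
    · exact Set.ncard_image_le hB
    · exact Set.ncard_image_le (hB.subset Set.sdiff_subset)
  have h3 : (B \ Fl).ncard + Fl.ncard = B.ncard := Set.ncard_sdiff_add_ncard_of_subset hFl hB
  rw [h1] at hle
  omega


/-- chain data -/
structure Chain (f : ℕ → Beh Q) (n : ℕ) : Prop where
  idem : ∀ i, i ≤ n → f i * f i = f i
  left : ∀ i, i < n → f i * f (i+1) = f (i+1)
  right : ∀ i, i < n → f (i+1) * f i = f (i+1)

def VV (f : ℕ → Beh Q) (n i : ℕ) : Set (Set Q) :=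
  {E | E ∈ KK (f i) ∧ ∃ j, i < j ∧ j ≤ n ∧ ¬ pass (f i) (f j) E}

def FF (f : ℕ → Beh Q) (i : ℕ) : Set (Set Q) :=
  {E | E ∈ KK (f i) ∧ ¬ pass (f i) (f (i+1)) E}

theorem step_count [Finite Q] {f : ℕ → Beh Q} {n i : ℕ} (hc : Chain f n) (hi : i < n) :
    2 * (VV f n (i+1)).ncard + (FF f i).ncard ≤ 2 * (VV f n i).ncard := by
  have he := hc.idem i hi.le
  have hf := hc.idem (i+1) hi
  have hef := hc.left i hi
  have hfe := hc.right i hi
  refine count_lemma (Set.toFinite _) ?_ (fun T E => T.Nonempty ∧ T ⊆ E) ?_ ?_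
  · rintro E ⟨hE1, hE2⟩
    exact ⟨hE1, i+1, by omega, hi, hE2⟩
  · rintro T E E' ⟨⟨q, hq, rfl⟩, _⟩ ⟨⟨q', hq', rfl⟩, _⟩ ⟨⟨r, hr⟩, h1⟩ ⟨_, h2⟩
    exact cls_eq hf (h1 hr) (h2 hr)
  · rintro E ⟨⟨q0, hq0, rfl⟩, j, hij, hjn, hnp⟩
    obtain ⟨qA, qB, hA, hB, hAB, hsA, hsB⟩ := members he hf hef hfe hq0
    have memV : ∀ q, rel (f i) q q → cls (f i) q ⊆ cls (f (i+1)) q0 →
        cls (f i) q ∈ VV f n i := by
      intro q hq hsub
      refine ⟨⟨q, hq, rfl⟩, j, by omega, hjn, ?_⟩
      intro hp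
      exact hnp (pass_mono hef hfe hsub hp)
    by_cases hEq : cls (f i) qA = cls (f i) qB
    · left
      refine ⟨cls (f i) qA, memV qA hA hsA, ?_, ⟨qA, mem_cls_self hA⟩, hsA⟩
      rintro ⟨_, hnp2⟩
      exact hnp2 ⟨qA, mem_cls_self hA, qB, by rw [hEq]; exact mem_cls_self hB, hAB⟩
    · right
      exact ⟨cls (f i) qA, memV qA hA hsA, cls (f i) qB, memV qB hB hsB, hEq,
        ⟨⟨qA, mem_cls_self hA⟩, hsA⟩, ⟨⟨qB, mem_cls_self hB⟩, hsB⟩⟩

theorem sum_count [Finite Q] {f : ℕ → Beh Q} {n : ℕ} (hc : Chain f n) :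
    ∑ i ∈ Finset.range n, (FF f i).ncard ≤ 2 * (VV f n 0).ncard := by
  have key : ∀ m, m ≤ n →
      ∑ i ∈ Finset.range m, (FF f i).ncard + 2 * (VV f n m).ncard ≤ 2 * (VV f n 0).ncard := by
    intro m
    induction m with
    | zero => intro _; simp
    | succ m ih =>
      intro hm
      have h1 := ih (by omega)
      have h2 := step_count hc (i := m) (by omega)
      rw [Finset.sum_range_succ]
      omega
  have := key n le_rfl
  omega

/-- rectangles for the left-right pairs -/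
def recI (f : Beh Q) (E : Set Q) : Set (Port Q) := {i | i.1 = false ∧ ∃ q ∈ E, zet f f i.2 q}
def recO (f : Beh Q) (E : Set Q) : Set (Option (Port Q)) :=
  {o | ∃ q ∈ E, ∃ y, o = some (true, y) ∧ eta f f q y}

theorem rec_sub {f W : Beh Q} (hf : f * f = f) (hW : f * W = W) (hW' : W * f = W) {q : Q}
    {E : Set Q} (hE : E = cls f q) (hp : pass f W E)
    {i : Port Q} {o : Option (Port Q)} (hi : i ∈ recI f E) (ho : o ∈ recO f E) : W i o := by
  rcases i with ⟨s, x⟩
  obtain ⟨rfl, q1, hq1, hz⟩ := hi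
  obtain ⟨q2, hq2, y, rfl, he⟩ := ho
  simp only at hz
  subst hE
  obtain ⟨a, ha, b, hb, hab⟩ := hp
  -- q1 → a → b → q2
  have r1 : rel f q1 a := rel_trans hf hq1.2 ha.1
  have r2 : rel f b q2 := rel_trans hf hb.2 hq2.1
  have c1 : al f W f q1 b := by
    have b1 : al f f (W * f) q1 a := by
      have := al_envR (W * f) r1
      rwa [← mul_assoc, hW] at this
    have b2 : al (f * f) W f a b := by rw [hf]; exact hab
    have := al_comp b1 b2
    rwa [hW] at this
  have c2 : al f W f q1 q2 := by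
    have b1 : al f W (f * f) q1 b := by rw [hf]; exact c1
    have b2 : al (f * W) f f b q2 := by
      have := al_envL W r2
      rw [hW'] at this
      rw [hW]
      exact this
    have := al_comp b1 b2
    rwa [hW'] at this
  have t1 : Reach [f, W, f] (At 0 x) (At 1 q1) := by
    have h1 : Reach [f, W * f] (At 0 x) (At 1 q1) := by
      have h2 : Reach [f, f * (W * f)] (At 0 x) (At 1 q1) := by
        have h3 := Reach.shift (L := []) (R := [W * f]) hz
        apply (merge2 [f] [] f (W * f) (At 0 x) (At 1 q1)).1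
        simpa using h3
      rwa [← mul_assoc, hW] at h2
    simpa using (merge2 [f] [] W f (At 0 x) (At 1 q1)).2 h1
  have t3 : Reach [f, W, f] (At 2 q2) (At 3 y) := by
    have h1 : Reach [f * W, f] (At 1 q2) (At 2 y) := by
      have := eta_envL W he
      rw [hW'] at this
      rw [hW]
      exact this
    simpa using (merge2 [] [f] f W (At 1 q2) (At 2 y)).2 h1
  have t : Reach [f, W, f] (At 0 x) (At 3 y) := (t1.trans c2).trans t3
  have : bb [f, W, f] (false, x) (some (true, y)) := t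
  rw [bb_three_left, hW, hW'] at this
  exact this

theorem rec_cover [Finite Q] {f : Beh Q} (hf : f * f = f) {x y : Q} (h : LR f x y) :
    ∃ E ∈ KK f, (false, x) ∈ recI f E ∧ some (true, y) ∈ recO f E := by
  obtain ⟨q, h1, h2, h3⟩ := eta_rec hf h
  have hq : rel f q q := al_of_eta f h2
  exact ⟨cls f q, ⟨q, hq, rfl⟩, ⟨rfl, q, mem_cls_self hq, zet_of_LR f h1⟩,
    q, mem_cls_self hq, y, rfl, h3⟩

theorem pass_self {f : Beh Q} {E : Set Q} (hE : E ∈ KK f) : pass f f E := by
  obtain ⟨q, hq, rfl⟩ := hE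
  exact ⟨q, mem_cls_self hq, q, mem_cls_self hq, hq⟩

end Crest.Agent.H9
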