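import Crest.Agent.H9.Cap

set_option autoImplicit false

namespace Crest.Agent.H9

open Relation

variable {Q : Type*}

/-- repetition of a list -/
def rep {α : Type*} (m : ℕ) (u : List α) : List α := (List.replicate m u).flatten

theorem rep_succ {α : Type*} (m : ℕ) (u : List α) : rep (m+1) u = u ++ rep m u := by
  simp [rep, List.replicate_succ]

theorem rep_add {α : Type*} (m n : ℕ) (u : List α) : rep (m+n) u = rep m u ++ rep n u := by
  unfold rep
  rw [List.replicate_add, List.flatten_append]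

theorem rep_ne {α : Type*} {m : ℕ} (hm : m ≠ 0) {u : List α} (hu : u ≠ []) : rep m u ≠ [] := by
  obtain ⟨k, rfl⟩ := Nat.exists_eq_succ_of_ne_zero hm
  rw [rep_succ]
  simp [hu]

theorem mem_rep {α : Type*} {m : ℕ} {u : List α} {x : α} (h : x ∈ rep m u) : x ∈ u := by
  simp [rep] at h
  exact h.2

theorem rep_one {α : Type*} (u : List α) : rep 1 u = u := by simp [rep]

section
variable [Finite Q] {γ : Type*} (β : List γ → Beh Q)
  (hβ : ∀ u v : List γ, u ≠ [] → v ≠ [] → β (u ++ v) = β u * β v)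

include hβ in
theorem idem_pow {u : List γ} (hu : u ≠ []) :
    ∃ m, 2 ≤ m ∧ β (rep m u) * β (rep m u) = β (rep m u) := by
  have hmul : ∀ m n, β (rep (m+1) u) * β (rep (n+1) u) = β (rep (m+1+(n+1)) u) := by
    intro m n
    rw [← hβ _ _ (rep_ne (by omega) hu) (rep_ne (by omega) hu), ← rep_add]
  obtain ⟨a, b, hab, heq⟩ := Finite.exists_ne_map_eq_of_infinite (fun m => β (rep (m+1) u))
  wlog hlt : a < b generalizing a b
  · exact this b a (Ne.symm hab) heq.symm (by omega)
  obtain ⟨p, rfl⟩ : ∃ p, b = a + (p+1) := ⟨b - a - 1, by omega⟩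
  have h1 : ∀ m, a ≤ m → β (rep (m+1) u) = β (rep (m + (p+1) + 1) u) := by
    intro m hm
    rcases Nat.eq_or_lt_of_le hm with rfl | hlt
    · exact heq
    · obtain ⟨d, rfl⟩ : ∃ d, m = a + (d + 1) := ⟨m - a - 1, by omega⟩
      have e1 : a + (d+1) + 1 = a + 1 + (d + 1) := by omega
      have e2 : a + (d+1) + (p+1) + 1 = a + (p+1) + 1 + (d+1) := by omega
      rw [e1, e2, ← hmul, ← hmul, heq]
  have h2 : ∀ t m, a ≤ m → β (rep (m+1) u) = β (rep (m + t * (p+1) + 1) u) := by
    intro t
    induction t with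
    | zero => intro m _; simp
    | succ t ih =>
      intro m hm
      rw [ih m hm, h1 (m + t * (p+1)) (by omega)]
      congr 2
      ring
  have hE : 2 ≤ (a+2) * (p+1) := by nlinarith
  have hEa : a + 1 ≤ (a+2)*(p+1) := by nlinarith
  refine ⟨(a+2) * (p+1), hE, ?_⟩
  obtain ⟨s, hs⟩ : ∃ s, (a+2)*(p+1) = s + 1 := ⟨(a+2)*(p+1) - 1, by omega⟩
  rw [hs, hmul]
  rw [h2 (a+2) s (by omega), hs]
  congr 2
  omega

open Classical in
noncomputable def mexp (u : List γ) : ℕ :=
  if h : u ≠ [] then (idem_pow β hβ h).choose else 2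

theorem mexp_ge (u : List γ) : 2 ≤ mexp β hβ u := by
  unfold mexp
  split_ifs with h
  · exact (idem_pow β hβ h).choose_spec.1
  · exact le_refl _

theorem mexp_idem {u : List γ} (h : u ≠ []) :
    β (rep (mexp β hβ u) u) * β (rep (mexp β hβ u) u) = β (rep (mexp β hβ u) u) := by
  unfold mexp
  rw [dif_pos h]
  exact (idem_pow β hβ h).choose_spec.2

/-- the nest of pattern lists -/
noncomputable def nest (z : γ) (lam : ℕ → γ) : ℕ → List γ
  | 0 => rep (mexp β hβ [z]) [z]
  | i+1 =>
    let u := nest z lam i ++ ([lam i] ++ rep (mexp β hβ [z] - 1) [z]) ++ nest z lam i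
    rep (mexp β hβ u) u

variable (z : γ) (lam : ℕ → γ)

noncomputable def nestU (i : ℕ) : List γ :=
  nest β hβ z lam i ++ ([lam i] ++ rep (mexp β hβ [z] - 1) [z]) ++ nest β hβ z lam i

theorem nest_succ (i : ℕ) :
    nest β hβ z lam (i+1) = rep (mexp β hβ (nestU β hβ z lam i)) (nestU β hβ z lam i) := rfl

theorem nestU_ne (i : ℕ) : nestU β hβ z lam i ≠ [] := by
  unfold nestU; simp

theorem nest_ne (i : ℕ) : nest β hβ z lam i ≠ [] := by
  cases i with
  | zero => exact rep_ne (by have := mexp_ge β hβ [z]; omega) (by simp)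
  | succ i =>
    rw [nest_succ]
    exact rep_ne (by have := mexp_ge β hβ (nestU β hβ z lam i); omega) (nestU_ne β hβ z lam i)

theorem nest_idem (i : ℕ) :
    β (nest β hβ z lam i) * β (nest β hβ z lam i) = β (nest β hβ z lam i) := by
  cases i with
  | zero => exact mexp_idem β hβ (by simp)
  | succ i => exact mexp_idem β hβ (nestU_ne β hβ z lam i)

theorem nest_mem (i : ℕ) : ∀ P ∈ nest β hβ z lam i, P = z ∨ ∃ j, j < i ∧ P = lam j := by
  induction i with
  | zero =>
    intro P hP
    have := mem_rep hP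
    simp at this
    exact Or.inl this
  | succ i ih =>
    intro P hP
    rw [nest_succ] at hP
    have := mem_rep hP
    unfold nestU at this
    simp only [List.mem_append] at this
    rcases this with (h | (h | h)) | h
    · rcases ih P h with h | ⟨j, hj, h⟩
      · exact Or.inl h
      · exact Or.inr ⟨j, by omega, h⟩
    · simp at h
      exact Or.inr ⟨i, by omega, h⟩
    · have := mem_rep h
      simp at this
      exact Or.inl this
    · rcases ih P h with h | ⟨j, hj, h⟩
      · exact Or.inl h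
      · exact Or.inr ⟨j, by omega, h⟩

theorem lam_mem (i : ℕ) : lam i ∈ nest β hβ z lam (i+1) := by
  rw [nest_succ]
  obtain ⟨k, hk⟩ : ∃ k, mexp β hβ (nestU β hβ z lam i) = k + 1 :=
    ⟨mexp β hβ (nestU β hβ z lam i) - 1, by have := mexp_ge β hβ (nestU β hβ z lam i); omega⟩
  rw [hk, rep_succ]
  unfold nestU
  simp

noncomputable def nrest : List γ := rep (mexp β hβ [z] - 1) [z]

theorem nrest_ne : nrest β hβ z ≠ [] :=
  rep_ne (by have := mexp_ge β hβ [z]; omega) (by simp)

theorem nestU_eq (i : ℕ) : β (nestU β hβ z lam i) =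
    β (nest β hβ z lam i) * ((β [lam i] * β (nrest β hβ z)) * β (nest β hβ z lam i)) := by
  have h1 := nest_ne β hβ z lam i
  have h2 := nrest_ne β hβ z
  unfold nestU
  change β (nest β hβ z lam i ++ ([lam i] ++ nrest β hβ z) ++ nest β hβ z lam i) = _
  rw [hβ _ _ (by simp [h1]) h1, hβ _ _ h1 (by simp), hβ _ _ (by simp) h2]
  simp only [mul_assoc]

include hβ in
theorem rep_mul (x : Beh Q) {u : List γ} (hu : u ≠ []) {m : ℕ} (hm : 2 ≤ m)
    (h : x * β u = β u) : x * β (rep m u) = β (rep m u) := by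
  obtain ⟨k, rfl⟩ : ∃ k, m = k + 1 := ⟨m - 1, by omega⟩
  rw [rep_succ, hβ _ _ hu (rep_ne (by omega) hu), ← mul_assoc, h]

include hβ in
theorem rep_mul' (x : Beh Q) {u : List γ} (hu : u ≠ []) {m : ℕ} (hm : 2 ≤ m)
    (h : β u * x = β u) : β (rep m u) * x = β (rep m u) := by
  obtain ⟨k, rfl⟩ : ∃ k, m = k + 1 := ⟨m - 1, by omega⟩
  rw [rep_add, rep_one, hβ _ _ (rep_ne (by omega) hu) hu, mul_assoc, h]

theorem nest_left (i : ℕ) : β (nest β hβ z lam i) * β (nest β hβ z lam (i+1)) =
    β (nest β hβ z lam (i+1)) := by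
  rw [nest_succ]
  apply rep_mul β hβ _ (nestU_ne β hβ z lam i) (mexp_ge ..)
  rw [nestU_eq β hβ z lam i, ← mul_assoc, nest_idem β hβ z lam i]

theorem nest_right (i : ℕ) : β (nest β hβ z lam (i+1)) * β (nest β hβ z lam i) =
    β (nest β hβ z lam (i+1)) := by
  rw [nest_succ]
  apply rep_mul' β hβ _ (nestU_ne β hβ z lam i) (mexp_ge ..)
  rw [nestU_eq β hβ z lam i]
  simp only [mul_assoc, nest_idem β hβ z lam i]

theorem nest_chain (n : ℕ) : Chain (fun i => β (nest β hβ z lam i)) n where
  idem i _ := nest_idem β hβ z lam i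
  left i _ := nest_left β hβ z lam i
  right i _ := nest_right β hβ z lam i

theorem nest_left0 (i : ℕ) : β (nest β hβ z lam 0) * β (nest β hβ z lam i) =
    β (nest β hβ z lam i) := by
  induction i with
  | zero => exact nest_idem β hβ z lam 0
  | succ i ih => rw [← nest_left β hβ z lam i, ← mul_assoc, ih]

theorem nest_right0 (i : ℕ) : β (nest β hβ z lam i) * β (nest β hβ z lam 0) =
    β (nest β hβ z lam i) := by
  induction i with
  | zero => exact nest_idem β hβ z lam 0
  | succ i ih =>
    have := nest_right β hβ z lam i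
    rw [← this, mul_assoc, ih]

/-- generators -/
noncomputable def ngen (P : γ) : Beh Q :=
  β (nest β hβ z lam 0) * ((β [P] * β (nrest β hβ z)) * β (nest β hβ z lam 0))

theorem ngen_z : ngen β hβ z lam z = β (nest β hβ z lam 0) := by
  unfold ngen
  have h1 : β [z] * β (nrest β hβ z) = β (nest β hβ z lam 0) := by
    rw [← hβ _ _ (by simp) (nrest_ne β hβ z)]
    show β ([z] ++ rep (mexp β hβ [z] - 1) [z]) = β (rep (mexp β hβ [z]) [z])
    rw [← rep_succ]
    congr 2
    have := mexp_ge β hβ [z]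
    omega
  rw [h1, nest_idem β hβ z lam 0, nest_idem β hβ z lam 0]

include hβ in
theorem Gen.rep {G : Set (Beh Q)} {u : List γ} (hu : u ≠ []) (h : Gen G (β u)) (m : ℕ) :
    Gen G (β (rep (m+1) u)) := by
  induction m with
  | zero => rw [rep_one]; exact h
  | succ m ih =>
    rw [rep_succ, hβ _ _ hu (rep_ne (by omega) hu)]
    exact Gen.mul _ _ h ih

theorem nest_gen (i : ℕ) : Gen {g | ∃ P, g = ngen β hβ z lam P} (β (nest β hβ z lam i)) := by
  induction i with
  | zero => exact Gen.base _ ⟨z, (ngen_z β hβ z lam).symm⟩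
  | succ i ih =>
    rw [nest_succ]
    obtain ⟨k, hk⟩ : ∃ k, mexp β hβ (nestU β hβ z lam i) = k + 1 :=
      ⟨mexp β hβ (nestU β hβ z lam i) - 1, by have := mexp_ge β hβ (nestU β hβ z lam i); omega⟩
    rw [hk]
    apply Gen.rep β hβ (nestU_ne β hβ z lam i)
    have e : β (nestU β hβ z lam i) =
        β (nest β hβ z lam i) * (ngen β hβ z lam (lam i) * β (nest β hβ z lam i)) := by
      have h1 := nest_left0 β hβ z lam i
      have h2 := nest_right0 β hβ z lam i
      rw [nestU_eq β hβ z lam i]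
      unfold ngen
      simp only [mul_assoc, h1]
      rw [← mul_assoc (β (nest β hβ z lam i)) (β (nest β hβ z lam 0)), h2]
    rw [e]
    exact Gen.mul _ _ ih (Gen.mul _ _ (Gen.base _ ⟨_, rfl⟩) ih)

end

section words
variable {α : Type*} (cb : α → Beh Q)

/-- behaviour of a word -/
def bw (w : List α) : Beh Q := bb (w.map cb)

theorem bw_append {u v : List α} (hu : u ≠ []) (hv : v ≠ []) :
    bw cb (u ++ v) = bw cb u * bw cb v := by
  unfold bw
  rw [List.map_append]
  exact bb_append (by simpa using hu) (by simpa using hv)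

variable (Sm Sp : List α) (inl' outl' : ℕ → α)

open Classical in
/-- one unit -/
noncomputable def unitW (P : Set ℕ) (j : ℕ) : List α :=
  [inl' j] ++ (if j ∈ P then Sp else Sm) ++ [outl' j]

noncomputable def blockW (k : ℕ) (P : Set ℕ) : List α :=
  (List.range k).flatMap (unitW Sm Sp inl' outl' P)

def blkT (k : ℕ) : List (Beh Q ⊕ ℕ) :=
  (List.range k).flatMap (fun j => [Sum.inl (cb (inl' j)), Sum.inr j, Sum.inl (cb (outl' j))])

theorem blkT_count (k : ℕ) : (blkT cb inl' outl' k).countP Sum.isRight = k := by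
  induction k with
  | zero => rfl
  | succ k ih =>
    unfold blkT at *
    rw [List.range_succ, List.flatMap_append, List.countP_append, ih]
    simp [List.countP_cons]

theorem blockW_ne {k : ℕ} (hk : 0 < k) (P : Set ℕ) : blockW Sm Sp inl' outl' k P ≠ [] := by
  obtain ⟨m, rfl⟩ : ∃ m, k = m + 1 := ⟨k - 1, by omega⟩
  unfold blockW unitW
  rw [List.range_succ, List.flatMap_append]
  simp

theorem blkT_bb {k : ℕ} (hk : 0 < k) (hm : Sm ≠ []) (hp : Sp ≠ []) (P : Set ℕ) :
    bb ((blkT cb inl' outl' k).map (ev (bw cb Sm) (bw cb Sp) P)) =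
      bw cb (blockW Sm Sp inl' outl' k P) := by
  classical
  let segs : List (List (Beh Q)) := (List.range k).flatMap (fun j =>
    [[cb (inl' j)], (if j ∈ P then Sp else Sm).map cb, [cb (outl' j)]])
  have h1 : segs.flatten = (blockW Sm Sp inl' outl' k P).map cb := by
    show ((List.range k).flatMap _).flatten = ((List.range k).flatMap _).map cb
    generalize List.range k = l
    induction l with
    | nil => rfl
    | cons j l ih =>
      simp only [List.flatMap_cons, List.flatten_append, List.map_append, ih]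
      simp [unitW]
  have h2 : segs.map bb = (blkT cb inl' outl' k).map (ev (bw cb Sm) (bw cb Sp) P) := by
    show ((List.range k).flatMap _).map bb = ((List.range k).flatMap _).map _
    generalize List.range k = l
    induction l with
    | nil => rfl
    | cons j l ih =>
      simp only [List.flatMap_cons, List.map_append, ih]
      congr 1
      by_cases hj : j ∈ P
      · simp [bb_singleton, hj, ev, bw]
      · simp [bb_singleton, hj, ev, bw]
  have hne : segs ≠ [] := by
    obtain ⟨m, rfl⟩ : ∃ m, k = m + 1 := ⟨k - 1, by omega⟩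
    show (List.range (m+1)).flatMap _ ≠ []
    rw [List.range_succ, List.flatMap_append]
    simp
  have hne2 : ∀ u ∈ segs, u ≠ [] := by
    intro u hu
    simp only [segs, List.mem_flatMap] at hu
    obtain ⟨j, _, hj⟩ := hu
    simp at hj
    rcases hj with rfl | rfl | rfl
    · simp
    · split_ifs
      · simpa using hp
      · simpa using hm
    · simp
  rw [← h2, ← bb_flatten hne hne2, h1]
  rfl

/-- word of a pattern list -/
noncomputable def wordP (k : ℕ) (pl : List (Set ℕ)) : List α :=
  pl.flatMap (blockW Sm Sp inl' outl' k)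

theorem wordP_ne {k : ℕ} (hk : 0 < k) {pl : List (Set ℕ)} (h : pl ≠ []) :
    wordP Sm Sp inl' outl' k pl ≠ [] := by
  rcases pl with _ | ⟨P, pl⟩
  · exact absurd rfl h
  · unfold wordP
    simp [blockW_ne Sm Sp inl' outl' hk P]

theorem level_words [Finite Q] {k : ℕ} (hk : 0 < k) (hm : Sm ≠ []) (hp : Sp ≠ [])
    {S : Set (Set (Port Q) × Set (Option (Port Q)))} (hd : DefS S (bw cb Sm) (bw cb Sp))
    (n : ℕ) (lam : ℕ → Set ℕ) :
    ∃ pl : ℕ → List (Set ℕ), (∀ i, pl i ≠ []) ∧
      (∀ i, ∀ P ∈ pl i, P = ∅ ∨ ∃ j, j < i ∧ P = lam j) ∧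
      (∀ i, lam i ∈ pl (i+1)) ∧
      ∃ S' : ℕ → Set (Set (Port Q) × Set (Option (Port Q))),
        (∀ i, i < n → DefS (S' i) (bw cb (wordP Sm Sp inl' outl' k (pl i)))
          (bw cb (wordP Sm Sp inl' outl' k (pl (i+1)))) ∧
          (∀ p o, bw cb (wordP Sm Sp inl' outl' k (pl (i+1))) p o →
            ∃ o', bw cb (wordP Sm Sp inl' outl' k (pl i)) p o')) ∧
        ∑ i ∈ Finset.range n, (S' i).ncard ≤ 4 * (k * S.ncard) := by
  let β : List (Set ℕ) → Beh Q := fun pl => bw cb (wordP Sm Sp inl' outl' k pl)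
  have hβ : ∀ u v : List (Set ℕ), u ≠ [] → v ≠ [] → β (u ++ v) = β u * β v := by
    intro u v hu hv
    show bw cb (wordP Sm Sp inl' outl' k (u ++ v)) = _
    have : wordP Sm Sp inl' outl' k (u ++ v) =
      wordP Sm Sp inl' outl' k u ++ wordP Sm Sp inl' outl' k v := by
      unfold wordP; rw [List.flatMap_append]
    rw [this, bw_append cb (wordP_ne Sm Sp inl' outl' hk hu) (wordP_ne Sm Sp inl' outl' hk hv)]
  set pl := nest β hβ ∅ lam with hpl
  refine ⟨pl, nest_ne β hβ ∅ lam, nest_mem β hβ ∅ lam, lam_mem β hβ ∅ lam, ?_⟩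
  let L : List (Beh Q ⊕ ℕ) := Sum.inl (β (pl 0)) :: (blkT cb inl' outl' k ++
    [Sum.inl (β (nrest β hβ ∅)), Sum.inl (β (pl 0))])
  have hblk : blkT cb inl' outl' k ≠ [] := by
    intro h
    have := blkT_count cb inl' outl' k
    rw [h] at this
    simp at this
    omega
  have hg : ∀ P : Set ℕ, bb (L.map (ev (bw cb Sm) (bw cb Sp) P)) = ngen β hβ ∅ lam P := by
    intro P
    have h1 : L.map (ev (bw cb Sm) (bw cb Sp) P) = β (pl 0) ::
      ((blkT cb inl' outl' k).map (ev (bw cb Sm) (bw cb Sp) P) ++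
        [β (nrest β hβ ∅), β (pl 0)]) := by
      simp [L]
    rw [h1, bb_cons _ (by simp), bb_append (by simpa using hblk) (by simp),
      blkT_bb cb Sm Sp inl' outl' hk hm hp]
    have h2 : bb [β (nrest β hβ ∅), β (pl 0)] = β (nrest β hβ ∅) * β (pl 0) := rfl
    have h3 : bw cb (blockW Sm Sp inl' outl' k P) = β [P] := by
      show _ = bw cb (wordP Sm Sp inl' outl' k [P])
      simp [wordP]
    rw [h2, h3]
    unfold ngen
    simp only [mul_assoc]
    rfl
  have hLcount : L.countP Sum.isRight = k := by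
    simp [L, List.countP_cons, List.countP_append, blkT_count]
  obtain ⟨S', h1, h2⟩ := level (f := fun i => β (pl i)) (n := n) hd
    (nest_chain β hβ ∅ lam n) (L := L) (by simp [L])
    (by rw [hg]; exact ngen_z β hβ ∅ lam) Set.univ
    (by
      intro P _
      rw [hg]
      unfold ngen
      have := nest_idem β hβ ∅ lam 0
      constructor
      · rw [← mul_assoc]
        show (β (nest β hβ ∅ lam 0) * β (nest β hβ ∅ lam 0)) * _ = _
        rw [this]
      · show _ * β (nest β hβ ∅ lam 0) = _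
        simp only [mul_assoc, this])
    (by
      intro j _
      have := nest_gen β hβ ∅ lam j
      have e : {g | ∃ P ∈ (Set.univ : Set (Set ℕ)), g = bb (L.map (ev (bw cb Sm) (bw cb Sp) P))}
          = {g | ∃ P, g = ngen β hβ ∅ lam P} := by
        ext g
        constructor
        · rintro ⟨P, _, rfl⟩
          exact ⟨P, hg P⟩
        · rintro ⟨P, rfl⟩
          exact ⟨P, trivial, (hg P).symm⟩
      rw [e]
      exact this)
  rw [hLcount] at h2
  refine ⟨S', fun i hi => ⟨h1 i hi, ?_⟩, h2⟩
  intro p o h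
  exact dom_mono (nest_left β hβ ∅ lam i) (nest_right β hβ ∅ lam i) h

end words

end Crest.Agent.H9
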