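import Crest.Prelude.Def_TwoWay
import Crest.Agent.H9.Nest

set_option autoImplicit false

namespace Crest.Agent.H9

open Relation Crest.TwoWay

section
variable {α σ : Type*} (M : TwoWayNFA α σ)

def stayR (κ : Cell α) : σ → σ → Prop :=
  ReflTransGen (fun a b => a ∉ M.accept ∧ (b, HeadMove.stay) ∈ M.step a κ)

def mv : Bool → HeadMove
  | false => HeadMove.moveLeft
  | true => HeadMove.moveRight

def cellB (κ : Cell α) : Beh σ := fun i o =>
  match o with
  | none => ∃ q', q' ∈ M.accept ∧ stayR M κ i.2 q'
  | some (t, q'') => ∃ q', q' ∉ M.accept ∧ stayR M κ i.2 q' ∧ (q'', mv t) ∈ M.step q' κ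

/-- letter behaviour -/
def lb (a : α) : Beh σ := cellB M (Cell.letter a)

def cells (w : List α) : List (Beh σ) :=
  cellB M Cell.leftEnd :: (w.map (lb M) ++ [cellB M Cell.rightEnd])

theorem cells_length (w : List α) : (cells M w).length = w.length + 2 := by
  simp [cells]

theorem cells_get (w : List α) {p : ℕ} (hp : p ≤ w.length + 1) :
    (cells M w)[p]? = some (cellB M (scan w p)) := by
  rcases p with _ | p
  · rfl
  · unfold cells scan
    simp only [List.getElem?_cons_succ, Nat.add_sub_cancel]
    rcases Nat.lt_or_ge p w.length with h | h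
    · rw [List.getElem?_append_left (by simpa using h), List.getElem?_map]
      rw [List.getElem?_eq_getElem h]
      simp [lb]
    · have hp' : p = w.length := by omega
      subst hp'
      rw [List.getElem?_append_right (by simp)]
      simp

theorem acc_fwd {w : List α} {c : σ × ℕ} (h : ReflTransGen (M.Step w) (M.start, 0) c) :
    Reach (cells M w) (At 0 M.start) none ∨ (c.2 ≤ w.length + 1 ∧ ∃ i : Port σ,
      Reach (cells M w) (At 0 M.start) (some (inS c.2 (c.2+1) i)) ∧
        stayR M (scan w c.2) i.2 c.1) := by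
  induction h with
  | refl =>
    exact Or.inr ⟨by simp, (false, M.start), ReflTransGen.refl, ReflTransGen.refl⟩
  | @tail c d _ hcd ih =>
    rcases ih with ih | ⟨hc, i, hi, hs⟩
    · exact Or.inl ih
    · by_cases hacc : c.1 ∈ M.accept
      · left
        have hedge := Edge.mk' (i := i) (o := none) (cells_get M w hc) ⟨c.1, hacc, hs⟩
        exact hi.tail hedge
      · right
        obtain ⟨m, hm1, hm2⟩ := hcd
        rcases m with _ | _ | _
        · -- moveLeft
          simp only [movePos] at hm2
          split_ifs at hm2 with h0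
          simp only [Option.some.injEq] at hm2
          have hedge := Edge.mk' (i := i) (o := some (false, d.1)) (cells_get M w hc)
            ⟨c.1, hacc, hs, hm1⟩
          refine ⟨by omega, (true, d.1), ?_, ReflTransGen.refl⟩
          have := hi.tail hedge
          simp only [Option.map_some, outS_false] at this
          simp only [inS_true]
          have e : d.2 + 1 = c.2 := by omega
          rw [e]
          exact this
        · simp only [movePos, Option.some.injEq] at hm2
          rw [← hm2]
          exact ⟨hc, i, hi, hs.tail ⟨hacc, hm1⟩⟩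
        · simp only [movePos] at hm2
          split_ifs at hm2 with h0
          simp only [Option.some.injEq] at hm2
          have hedge := Edge.mk' (i := i) (o := some (true, d.1)) (cells_get M w hc)
            ⟨c.1, hacc, hs, hm1⟩
          refine ⟨by omega, (false, d.1), ?_, ReflTransGen.refl⟩
          have := hi.tail hedge
          simp only [Option.map_some, outS_true] at this
          simp only [inS_false]
          rw [← hm2]
          exact this

def Inv (w : List α) : Node σ → Prop
  | none => M.Accepts w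
  | some (p, true, q) => p ≤ w.length + 1 → ReflTransGen (M.Step w) (M.start, 0) (q, p)
  | some (p, false, q) => 1 ≤ p → ReflTransGen (M.Step w) (M.start, 0) (q, p - 1)

theorem acc_bwd {w : List α} {z : Node σ} (h : Reach (cells M w) (At 0 M.start) z) :
    Inv M w z := by
  induction h with
  | refl => exact fun _ => ReflTransGen.refl
  | @tail z z2 _ hzz ih =>
    obtain ⟨k, c, i, o, hk, hc, rfl, rfl⟩ := hzz
    have hkl := lt_of_get? hk
    rw [cells_length] at hkl
    rw [cells_get M w (by omega)] at hk
    simp only [Option.some.injEq] at hk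
    subst hk
    have hconf : ReflTransGen (M.Step w) (M.start, 0) (i.2, k) := by
      rcases i with ⟨_ | _, q⟩
      · have ih' : k ≤ w.length + 1 → ReflTransGen (M.Step w) (M.start, 0) (q, k) := ih
        exact ih' (by omega)
      · have ih' : 1 ≤ k + 1 → ReflTransGen (M.Step w) (M.start, 0) (q, k + 1 - 1) := ih
        exact ih' (by omega)
    have hstay : ∀ q', stayR M (scan w k) i.2 q' →
        ReflTransGen (M.Step w) (M.start, 0) (q', k) := by
      intro q' hq'
      induction hq' with
      | refl => exact hconf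
      | tail _ hbc ih2 => exact ih2.tail ⟨HeadMove.stay, hbc.2, rfl⟩
    rcases o with _ | ⟨_ | _, q''⟩
    · obtain ⟨q', hq', hs⟩ := hc
      exact ⟨(q', k), hstay q' hs, hq'⟩
    · obtain ⟨q', hq', hs, hstep⟩ := hc
      show 1 ≤ k → ReflTransGen (M.Step w) (M.start, 0) (q'', k - 1)
      intro hk1
      refine (hstay q' hs).tail ⟨HeadMove.moveLeft, hstep, ?_⟩
      simp only [movePos]
      rw [if_neg (by omega)]
    · obtain ⟨q', hq', hs, hstep⟩ := hc
      show k + 1 ≤ w.length + 1 → ReflTransGen (M.Step w) (M.start, 0) (q'', k + 1)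
      intro hk1
      refine (hstay q' hs).tail ⟨HeadMove.moveRight, hstep, ?_⟩
      simp only [movePos]
      rw [if_neg (by omega)]

theorem accepts_iff (w : List α) :
    M.Accepts w ↔ bb (cells M w) (false, M.start) none := by
  constructor
  · rintro ⟨c, hc, hacc⟩
    rcases acc_fwd M hc with h | ⟨h1, i, h2, h3⟩
    · exact h
    · exact h2.tail (Edge.mk' (i := i) (o := none) (cells_get M w h1) ⟨c.1, hacc, h3⟩)
  · intro h
    exact acc_bwd M (z := none) h

theorem bb_mono3 {x a b y : Beh σ} (h : ∀ i o, a i o → b i o) {i : Port σ}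
    {o : Option (Port σ)} (hi : (x * (a * y)) i o) : (x * (b * y)) i o := by
  rw [← bb_three_right] at hi ⊢
  have key : ∀ u v, Reach [x, a, y] u v → Reach [x, b, y] u v := by
    intro u v huv
    induction huv with
    | refl => exact ReflTransGen.refl
    | tail _ hbc ih =>
      refine ih.tail ?_
      obtain ⟨k, c, i, o, hk, hc, rfl, rfl⟩ := hbc
      have hk3 := lt_of_get? hk
      simp at hk3
      obtain rfl | rfl | rfl : k = 0 ∨ k = 1 ∨ k = 2 := by omega
      · simp at hk; subst hk
        exact Edge.mk' (l := [x, b, y]) (k := 0) rfl hc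
      · simp at hk; subst hk
        exact Edge.mk' (l := [x, b, y]) (k := 1) rfl (h _ _ hc)
      · simp at hk; subst hk
        exact Edge.mk' (l := [x, b, y]) (k := 2) rfl hc
  exact key _ _ hi

theorem cells_split (v1 u v2 : List α) (hu : u ≠ []) :
    bb (cells M (v1 ++ u ++ v2)) =
      bb (cellB M Cell.leftEnd :: v1.map (lb M)) * (bw (lb M) u *
        bb (v2.map (lb M) ++ [cellB M Cell.rightEnd])) := by
  have e : cells M (v1 ++ u ++ v2) = (cellB M Cell.leftEnd :: v1.map (lb M)) ++
      (u.map (lb M) ++ (v2.map (lb M) ++ [cellB M Cell.rightEnd])) := by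
    simp [cells]
  rw [e, bb_append (by simp) (by simp), bb_append (by simpa using hu) (by simp)]
  rfl

theorem accepts_mono {v1 u u' v2 : List α} (hu : u ≠ []) (hu' : u' ≠ [])
    (h : ∀ i o, bw (lb M) u i o → bw (lb M) u' i o) (hacc : M.Accepts (v1 ++ u ++ v2)) :
    M.Accepts (v1 ++ u' ++ v2) := by
  rw [accepts_iff, cells_split M _ _ _ hu] at hacc
  rw [accepts_iff, cells_split M _ _ _ hu']
  exact bb_mono3 h hacc

/-- functional behaviours -/
def Fn (b : Beh σ) : Prop := ∀ i o o', b i o → b i o' → o = o'

theorem rtg_unique {X : Type*} {r : X → X → Prop} (hr : ∀ a b c, r a b → r a c → b = c)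
    {x y y' : X} (h : ReflTransGen r x y) (h' : ReflTransGen r x y')
    (hy : ∀ z, ReflTransGen r y z → z = y) (hy' : ∀ z, ReflTransGen r y' z → z = y') :
    y = y' := by
  rcases ReflTransGen.total_of_right_unique (fun a b c => hr a b c) h h' with h1 | h1
  · exact (hy _ h1).symm
  · exact hy' _ h1

theorem cellB_fn (hM : M.IsDeterministic) (κ : Cell α) : Fn (cellB M κ) := by
  have hr : ∀ a b c, (a ∉ M.accept ∧ (b, HeadMove.stay) ∈ M.step a κ) →
      (a ∉ M.accept ∧ (c, HeadMove.stay) ∈ M.step a κ) → b = c := by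
    rintro a b c ⟨_, h1⟩ ⟨_, h2⟩
    have := hM a κ h1 h2
    simpa using this
  have t1 : ∀ q, q ∈ M.accept → ∀ z, stayR M κ q z → z = q := by
    intro q hq z hz
    rcases ReflTransGen.cases_head hz with h | ⟨c, h, _⟩
    · exact h.symm
    · exact absurd hq h.1
  have t2 : ∀ q q'' t, (q'', mv t) ∈ M.step q κ → ∀ z, stayR M κ q z → z = q := by
    intro q q'' t hq z hz
    rcases ReflTransGen.cases_head hz with h | ⟨c, h, _⟩
    · exact h.symm
    · have := hM q κ hq h.2
      rcases t with _ | _ <;> simp [mv] at this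
  rintro i (_ | ⟨t, q⟩) (_ | ⟨t', q'⟩) h h'
  · rfl
  · exfalso
    obtain ⟨a, ha, hsa⟩ := h
    obtain ⟨b, hb, hsb, hstep⟩ := h'
    have : a = b := rtg_unique hr hsa hsb (t1 a ha) (t2 b _ _ hstep)
    subst this
    exact hb ha
  · exfalso
    obtain ⟨a, ha, hsa⟩ := h'
    obtain ⟨b, hb, hsb, hstep⟩ := h
    have : a = b := rtg_unique hr hsa hsb (t1 a ha) (t2 b _ _ hstep)
    subst this
    exact hb ha
  · obtain ⟨a, ha, hsa, hstepa⟩ := h
    obtain ⟨b, hb, hsb, hstepb⟩ := h'
    have : a = b := rtg_unique hr hsa hsb (t2 a _ _ hstepa) (t2 b _ _ hstepb)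
    subst this
    have := hM a κ hstepa hstepb
    rcases t with _ | _ <;> rcases t' with _ | _ <;> simp [mv] at this ⊢
    · exact this
    · exact this

theorem edge_fn {l : List (Beh σ)} (hl : ∀ b ∈ l, Fn b) (x y z : Node σ)
    (h : Edge l x y) (h' : Edge l x z) : y = z := by
  obtain ⟨k, c, i, o, hk, hc, rfl, rfl⟩ := h
  obtain ⟨k', c', i', o', hk', hc', hi, rfl⟩ := h'
  have : k = k' ∧ i = i' := by
    rcases i with ⟨_ | _, q⟩ <;> rcases i' with ⟨_ | _, q'⟩ <;> simp at hi ⊢
    · exact hi
    · exact hi
  obtain ⟨rfl, rfl⟩ := this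
  rw [hk] at hk'
  simp only [Option.some.injEq] at hk'
  subst hk'
  have := hl c (List.mem_of_getElem? hk) i o o' hc hc'
  rw [this]

theorem bb_fn {l : List (Beh σ)} (hl : ∀ b ∈ l, Fn b) : Fn (bb l) := by
  have term : ∀ o : Option (Port σ), ∀ z, Reach l (o.map (outS 0 l.length)) z →
      z = o.map (outS 0 l.length) := by
    intro o z hz
    rcases o with _ | ⟨_ | _, q⟩
    · exact reach_none hz
    · exact reach_left_exit hz
    · exact reach_right_exit hz
  intro i o o' h h'
  have := rtg_unique (edge_fn hl) h h' (term o) (term o')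
  rcases o with _ | ⟨_ | _, q⟩ <;> rcases o' with _ | ⟨_ | _, q'⟩ <;> simp at this ⊢
  · exact this
  · exact this

theorem bw_fn (hM : M.IsDeterministic) (w : List α) : Fn (bw (lb M) w) := by
  apply bb_fn
  intro b hb
  rw [List.mem_map] at hb
  obtain ⟨a, _, rfl⟩ := hb
  exact cellB_fn M hM _

end

end Crest.Agent.H9
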