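import Crest.Agent.H9.Points
import Crest.Agent.H9.Mach

set_option autoImplicit false

namespace Crest.Agent.H9

open Relation Crest.TwoWay

/-- index to interval pattern -/
def lamS (i : ℕ) : Set ℕ :=
  {s | i % 15 + i / 15 < 15 ∧ i % 15 ≤ s ∧ s ≤ i % 15 + i / 15}

theorem valid_card : ((Finset.range 225).filter (fun i => i % 15 + i / 15 < 15)).card = 120 := by
  decide +kernel

section
variable {Q : Type*} {H : ℕ} (cb : Ltr H → Beh Q)

def PairAt (m N : ℕ) : Prop :=
  ∃ (Sm Sp : List (Ltr H)) (a0 b0 : Fin H) (S : Set (Set (Port Q) × Set (Option (Port Q)))),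
    Sm ≠ [] ∧ Sp ≠ [] ∧ a0.val < m ∧ b0.val < m ∧ Ext m Sm ∧ Ext m Sp ∧
    ¬ wordRel Sm a0 b0 ∧ wordRel Sp a0 b0 ∧ DefS S (bw cb Sm) (bw cb Sp) ∧ S.ncard = N

/-- no pair with included behaviours -/
def NoInc : Prop :=
  ∀ (Sm Sp : List (Ltr H)) (a0 b0 : Fin H), Sm ≠ [] → Sp ≠ [] → ¬ wordRel Sm a0 b0 →
    wordRel Sp a0 b0 → (∀ i o, bw cb Sm i o → bw cb Sp i o) →
    (∀ i o, bw cb Sp i o → ∃ o', bw cb Sm i o') → False

theorem level_step [Finite Q] (hno : NoInc cb) {m N : ℕ} (hH : m + 31 ≤ H)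
    (h : PairAt cb m N) : ∃ N', 1 ≤ N' ∧ 2 * N' ≤ N ∧ PairAt cb (m + 31) N' := by
  obtain ⟨Sm, Sp, a0, b0, S, hm, hp, ha, hb, hem, hep, h0, h1, hd, hN⟩ := h
  obtain ⟨pl, hne, hmem, hlam, S', hS', hsum⟩ :=
    level_words cb Sm Sp (inL m a0) (outL m b0) (k := 15) (by norm_num) hm hp hd 225 lamS
  set valid := (Finset.range 225).filter (fun i => i % 15 + i / 15 < 15) with hvalid
  have hex : ∃ i ∈ valid, 2 * (S' i).ncard ≤ N := by
    by_contra hcon
    push Not at hcon
    have h2 : ∑ i ∈ valid, (N + 1) ≤ ∑ i ∈ valid, 2 * (S' i).ncard :=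
      Finset.sum_le_sum fun i hi => hcon i hi
    have h3 : ∑ i ∈ valid, (S' i).ncard ≤ ∑ i ∈ Finset.range 225, (S' i).ncard :=
      Finset.sum_le_sum_of_subset (Finset.filter_subset _ _)
    rw [Finset.sum_const, valid_card, ← Finset.mul_sum] at h2
    rw [hN] at hsum
    simp only [smul_eq_mul] at h2
    omega
  obtain ⟨i, hi, hle⟩ := hex
  rw [hvalid, Finset.mem_filter, Finset.mem_range] at hi
  obtain ⟨hi1, hi2⟩ := hi
  set a := i % 15 with hadef
  set d := i / 15 with hddef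
  have hmem' : ∀ P ∈ pl i, ¬ Set.Icc a (a + d) ⊆ P := by
    intro P hP hsub
    rcases hmem i P hP with rfl | ⟨j, hj, rfl⟩
    · exact absurd (hsub (show a ∈ Set.Icc a (a + d) from ⟨le_refl _, by omega⟩))
        (Set.notMem_empty _)
    · have c1 : a ∈ lamS j := hsub (show a ∈ Set.Icc a (a + d) from ⟨le_refl _, by omega⟩)
      have c2 : a + d ∈ lamS j :=
        hsub (show a + d ∈ Set.Icc a (a + d) from ⟨by omega, le_refl _⟩)
      obtain ⟨p1, p2, p3⟩ := c1
      obtain ⟨q1, q2, q3⟩ := c2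
      omega
  have hlive : Set.Icc a (a + d) ⊆ lamS i := by
    rintro s ⟨h2, h3⟩
    exact ⟨hi2, h2, h3⟩
  let x : Fin H := ⟨m + a, by omega⟩
  let y : Fin H := ⟨m + 15 + (a + d), by omega⟩
  have hw0 : ¬ wordRel (wordP Sm Sp (inL m a0) (outL m b0) 15 (pl i)) x y :=
    word_dead ha hb hem hep h0 h1 (pl i) a (a + d) (by omega) (by omega) hmem' x y rfl rfl
  have hw1 : wordRel (wordP Sm Sp (inL m a0) (outL m b0) 15 (pl (i+1))) x y :=
    word_live ha hb hem hep h0 h1 hH (pl (i+1)) a (a + d) (by omega) (by omega) (hlam i) hlive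
      x y rfl rfl
  have hne0 := wordP_ne Sm Sp (inL m a0) (outL m b0) (k := 15) (by norm_num) (hne i)
  have hne1 := wordP_ne Sm Sp (inL m a0) (outL m b0) (k := 15) (by norm_num) (hne (i+1))
  obtain ⟨hDef, hdom⟩ := hS' i hi1
  refine ⟨(S' i).ncard, ?_, hle, _, _, x, y, S' i, hne0, hne1, ?_, ?_, word_ext ha hb hem hep h0 h1 _,
    word_ext ha hb hem hep h0 h1 _, hw0, hw1, hDef, rfl⟩
  · by_contra hcon
    have hz : (S' i).ncard = 0 := by omega
    rw [Set.ncard_eq_zero (Set.toFinite _)] at hz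
    refine hno _ _ x y hne0 hne1 hw0 hw1 ?_ hdom
    intro p o hpo
    rcases hDef.cov p o hpo with h | ⟨r, hr, _⟩
    · exact h
    · rw [hz] at hr
      exact absurd hr (Set.notMem_empty _)
  · show m + a < m + 31
    omega
  · show m + 15 + (a + d) < m + 31
    omega

theorem base_pair [Finite Q] (hH : 2 ≤ H) : ∃ N, N ≤ 2 * Nat.card Q ∧ PairAt cb 2 N := by
  let a0 : Fin H := ⟨0, by omega⟩
  let b0 : Fin H := ⟨1, by omega⟩
  let R0 : Ltr H := fun x y => decide (x = y)
  let R1 : Ltr H := fun x y => decide (x = y ∨ (x = a0 ∧ y = b0))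
  let S : Set (Set (Port Q) × Set (Option (Port Q))) :=
    (fun i : Port Q => (({i} : Set (Port Q)), {o | bw cb [R0] i o})) '' Set.univ
  have hS : S.ncard ≤ 2 * Nat.card Q := by
    refine (Set.ncard_image_le (Set.toFinite _)).trans ?_
    rw [Set.ncard_univ, Nat.card_prod]
    simp
  refine ⟨S.ncard, hS, [R0], [R1], a0, b0, S, by simp, by simp, by simp [a0], by simp [b0],
    ?_, ?_, ?_, ?_, ?_, rfl⟩
  · constructor
    · intro x y h
      rw [wordRel_single] at h
      have : x = y := by simpa [R0] using h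
      subst this
      rcases Nat.lt_or_ge x.val 2 with h | h
      · exact Or.inl ⟨h, h⟩
      · exact Or.inr ⟨h, rfl⟩
    · intro x _
      rw [wordRel_single]
      simp [R0]
  · constructor
    · intro x y h
      rw [wordRel_single] at h
      have : x = y ∨ (x = a0 ∧ y = b0) := by simpa [R1] using h
      rcases this with rfl | ⟨rfl, rfl⟩
      · rcases Nat.lt_or_ge x.val 2 with h | h
        · exact Or.inl ⟨h, h⟩
        · exact Or.inr ⟨h, rfl⟩
      · left
        simp [a0, b0]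
    · intro x _
      rw [wordRel_single]
      simp [R1]
  · rw [wordRel_single]
    simp [R0, a0, b0]
  · rw [wordRel_single]
    simp [R1]
  · constructor
    · rintro _ ⟨i, _, rfl⟩ j hj o ho
      have : j = i := hj
      subst this
      exact ho
    · intro i o h
      right
      exact ⟨_, ⟨i, trivial, rfl⟩, rfl, h⟩

theorem growth [Finite Q] (hno : NoInc cb) (hH : 2 ≤ H) (hQ : 1 ≤ Nat.card Q) :
    2 ^ ((H - 2) / 31) ≤ 2 * Nat.card Q := by
  have key : ∀ l, 2 + 31 * l ≤ H → ∃ N, PairAt cb (2 + 31 * l) N ∧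
      (l = 0 ∨ 1 ≤ N) ∧ 2 ^ l * N ≤ 2 * Nat.card Q := by
    intro l
    induction l with
    | zero =>
      intro _
      obtain ⟨N, h1, h2⟩ := base_pair cb hH
      exact ⟨N, h2, Or.inl rfl, by simpa using h1⟩
    | succ l ih =>
      intro hl
      obtain ⟨N, h1, _, h3⟩ := ih (by omega)
      obtain ⟨N', h4, h5, h6⟩ := level_step cb hno (m := 2 + 31 * l) (by omega) h1
      refine ⟨N', ?_, Or.inr h4, ?_⟩
      · have e : 2 + 31 * (l + 1) = 2 + 31 * l + 31 := by ring
        rw [e]; exact h6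
      · calc 2 ^ (l+1) * N' = 2 ^ l * (2 * N') := by ring
          _ ≤ 2 ^ l * N := Nat.mul_le_mul_left _ h5
          _ ≤ _ := h3
  obtain ⟨N, _, h2, h3⟩ := key ((H - 2) / 31) (by omega)
  rcases h2 with h2 | h2
  · rw [h2]
    omega
  · calc 2 ^ ((H - 2) / 31) = 2 ^ ((H - 2) / 31) * 1 := by ring
      _ ≤ 2 ^ ((H - 2) / 31) * N := Nat.mul_le_mul_left _ h2
      _ ≤ _ := h3

end

section machine
variable {σ : Type*} {H : ℕ} (M : TwoWayNFA (Ltr H) σ)

/-- the single-pair letter -/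
def dl (a : Fin H) : Ltr H := fun x y => decide (x = a ∧ y = a)

theorem wrap_rel (w : List (Ltr H)) (a b : Fin H) :
    (∃ x y, wordRel ([dl a] ++ w ++ [dl b]) x y) ↔ wordRel w a b := by
  constructor
  · rintro ⟨x, y, h⟩
    rw [wordRel_append] at h
    obtain ⟨v, h, hv⟩ := h
    rw [wordRel_append] at h
    obtain ⟨u, hu, huv⟩ := h
    rw [wordRel_single] at hu hv
    have h1 : x = a ∧ u = a := by simpa [dl] using hu
    have h2 : v = b ∧ y = b := by simpa [dl] using hv
    rw [h1.2, h2.1] at huv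
    exact huv
  · intro h
    refine ⟨a, b, ?_⟩
    rw [wordRel_append]
    refine ⟨b, ?_, ?_⟩
    · rw [wordRel_append]
      refine ⟨a, ?_, h⟩
      rw [wordRel_single]
      simp [dl]
    · rw [wordRel_single]
      simp [dl]

theorem noInc_compl (hM : M.language = (liveness H)ᶜ) : NoInc (lb M) := by
  intro Sm Sp a0 b0 hm hp h0 h1 hinc _
  have hacc : M.Accepts ([dl a0] ++ Sm ++ [dl b0]) := by
    have : ([dl a0] ++ Sm ++ [dl b0]) ∈ M.language := by
      rw [hM]
      intro hlive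
      exact h0 ((wrap_rel Sm a0 b0).1 hlive)
    exact this
  have hacc2 := accepts_mono M hm hp hinc hacc
  have : ([dl a0] ++ Sp ++ [dl b0]) ∈ M.language := hacc2
  rw [hM] at this
  exact this ((wrap_rel Sp a0 b0).2 h1)

theorem noInc_det (hdet : M.IsDeterministic) (hM : M.language = liveness H) :
    NoInc (lb M) := by
  intro Sm Sp a0 b0 hm hp h0 h1 hinc hdom
  have hinc2 : ∀ i o, bw (lb M) Sp i o → bw (lb M) Sm i o := by
    intro i o h
    obtain ⟨o', ho'⟩ := hdom i o h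
    have := bw_fn M hdet Sp i o o' h (hinc i o' ho')
    rw [this]; exact ho'
  have hacc : M.Accepts ([dl a0] ++ Sp ++ [dl b0]) := by
    have : ([dl a0] ++ Sp ++ [dl b0]) ∈ M.language := by
      rw [hM]
      exact (wrap_rel Sp a0 b0).2 h1
    exact this
  have hacc2 := accepts_mono M hp hm hinc2 hacc
  have : ([dl a0] ++ Sm ++ [dl b0]) ∈ M.language := hacc2
  rw [hM] at this
  exact h0 ((wrap_rel Sm a0 b0).1 this)

theorem lower_compl [Fintype σ] (hH : 2 ≤ H) (hM : M.language = (liveness H)ᶜ) :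
    2 ^ ((H - 2) / 31) ≤ 2 * Fintype.card σ := by
  have : Nonempty σ := ⟨M.start⟩
  have := growth (lb M) (noInc_compl M hM) hH Nat.card_pos
  rwa [Nat.card_eq_fintype_card] at this

theorem lower_det [Fintype σ] (hH : 2 ≤ H) (hdet : M.IsDeterministic)
    (hM : M.language = liveness H) :
    2 ^ ((H - 2) / 31) ≤ 2 * Fintype.card σ := by
  have : Nonempty σ := ⟨M.start⟩
  have := growth (lb M) (noInc_det M hdet hM) hH Nat.card_pos
  rwa [Nat.card_eq_fintype_card] at this

end machine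

end Crest.Agent.H9
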