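import Crest.Prelude.Def_TwoWay
import Crest.Agent.H9.Nest

set_option autoImplicit false

namespace Crest.Agent.H9

open Relation Crest.TwoWay

variable {H : ℕ}

abbrev Ltr (H : ℕ) := Fin H → Fin H → Bool

theorem wordRel_append {u v : List (Ltr H)} {x z : Fin H} :
    wordRel (u ++ v) x z ↔ ∃ y, wordRel u x y ∧ wordRel v y z := by
  induction u generalizing x with
  | nil => simp [wordRel]
  | cons R u ih =>
    simp only [List.cons_append, wordRel, ih]
    constructor
    · rintro ⟨b, h1, y, h2, h3⟩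
      exact ⟨y, ⟨b, h1, h2⟩, h3⟩
    · rintro ⟨y, ⟨b, h1, h2⟩, h3⟩
      exact ⟨b, h1, y, h2, h3⟩

theorem wordRel_single {R : Ltr H} {x y : Fin H} : wordRel [R] x y ↔ R x y = true := by
  simp [wordRel]

def Ext (m : ℕ) (w : List (Ltr H)) : Prop :=
  (∀ x y : Fin H, wordRel w x y → (x.val < m ∧ y.val < m) ∨ (m ≤ x.val ∧ x = y)) ∧
  (∀ x : Fin H, m ≤ x.val → wordRel w x x)

theorem Ext.append {m : ℕ} {u v : List (Ltr H)} (hu : Ext m u) (hv : Ext m v) :
    Ext m (u ++ v) := by
  constructor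
  · intro x y h
    obtain ⟨z, h1, h2⟩ := wordRel_append.1 h
    rcases hu.1 x z h1 with ⟨a, b⟩ | ⟨a, rfl⟩
    · rcases hv.1 z y h2 with ⟨c, d⟩ | ⟨c, rfl⟩
      · exact Or.inl ⟨a, d⟩
      · omega
    · exact hv.1 _ _ h2
  · intro x hx
    exact wordRel_append.2 ⟨x, hu.2 x hx, hv.2 x hx⟩

theorem Ext.nil {m : ℕ} : Ext (H := H) m [] := by
  constructor
  · rintro x y rfl
    rcases lt_or_ge x.val m with h | h
    · exact Or.inl ⟨h, h⟩
    · exact Or.inr ⟨h, rfl⟩
  · intro x _
    rfl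

theorem Ext.flatMap {m : ℕ} {ι : Type*} {l : List ι} {f : ι → List (Ltr H)}
    (h : ∀ x ∈ l, Ext m (f x)) : Ext m (l.flatMap f) := by
  induction l with
  | nil => exact Ext.nil
  | cons x l ih =>
    rw [List.flatMap_cons]
    exact (h x (by simp)).append (ih fun y hy => h y (by simp [hy]))

variable (m : ℕ) (a0 b0 : Fin H)

def inL (j : ℕ) : Ltr H := fun x y =>
  decide ((m ≤ x.val ∧ x.val ≠ m + 30 ∧ y = x) ∨
    ((x.val = m + j ∨ (x.val = m + 30 ∧ j ≠ 0)) ∧ y = a0))

def outL (j : ℕ) : Ltr H := fun x y =>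
  decide ((m ≤ x.val ∧ x.val ≠ m + 30 ∧ y = x) ∨
    (x = b0 ∧ (y.val = m + 30 ∨ y.val = m + 15 + j)))

def urel (P : Set ℕ) (j : ℕ) (x y : Fin H) : Prop :=
  (m ≤ x.val ∧ x.val ≠ m + 30 ∧ y = x) ∨
    ((x.val = m + j ∨ (x.val = m + 30 ∧ j ≠ 0)) ∧ j ∈ P ∧ (y.val = m + 30 ∨ y.val = m + 15 + j))

variable {m a0 b0}
variable {Sm Sp : List (Ltr H)}

theorem unit_rel (ha : a0.val < m) (hb : b0.val < m) (hm : Ext m Sm) (hp : Ext m Sp)
    (h0 : ¬ wordRel Sm a0 b0) (h1 : wordRel Sp a0 b0) (P : Set ℕ) (j : ℕ) (x y : Fin H) :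
    wordRel (unitW Sm Sp (inL m a0) (outL m b0) P j) x y ↔ urel m P j x y := by
  classical
  unfold unitW
  have hS : ∀ u v : Fin H, wordRel (if j ∈ P then Sp else Sm) u v →
      (u.val < m ∧ v.val < m) ∨ (m ≤ u.val ∧ u = v) := by
    intro u v huv
    split_ifs at huv
    · exact hp.1 u v huv
    · exact hm.1 u v huv
  have hS2 : ∀ u : Fin H, m ≤ u.val → wordRel (if j ∈ P then Sp else Sm) u u := by
    intro u hu
    split_ifs
    · exact hp.2 u hu
    · exact hm.2 u hu
  constructor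
  · intro h
    obtain ⟨v, h, hv⟩ := wordRel_append.1 h
    obtain ⟨u, hu, huv⟩ := wordRel_append.1 h
    rw [wordRel_single] at hu hv
    unfold inL at hu
    unfold outL at hv
    rw [decide_eq_true_iff] at hu hv
    rcases hu with ⟨hx1, hx2, rfl⟩ | ⟨hx, rfl⟩
    · rcases hS _ _ huv with h | ⟨_, rfl⟩
      · omega
      · rcases hv with ⟨_, _, rfl⟩ | ⟨rfl, _⟩
        · exact Or.inl ⟨hx1, hx2, rfl⟩
        · omega
    · rcases hS _ _ huv with h | h
      · rcases hv with ⟨h3, _⟩ | ⟨rfl, hy⟩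
        · omega
        · by_cases hj : j ∈ P
          · exact Or.inr ⟨hx, hj, hy⟩
          · rw [if_neg hj] at huv
            exact absurd huv h0
      · omega
  · rintro (⟨hx1, hx2, rfl⟩ | ⟨hx, hj, hy⟩)
    · rw [wordRel_append]
      refine ⟨y, ?_, ?_⟩
      · rw [wordRel_append]
        refine ⟨y, ?_, hS2 y hx1⟩
        rw [wordRel_single]
        unfold inL
        rw [decide_eq_true_iff]
        exact Or.inl ⟨hx1, hx2, rfl⟩
      · rw [wordRel_single]
        unfold outL
        rw [decide_eq_true_iff]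
        exact Or.inl ⟨hx1, hx2, rfl⟩
    · rw [wordRel_append]
      refine ⟨b0, ?_, ?_⟩
      · rw [wordRel_append]
        refine ⟨a0, ?_, ?_⟩
        · rw [wordRel_single]
          unfold inL
          rw [decide_eq_true_iff]
          exact Or.inr ⟨hx, rfl⟩
        · rw [if_pos hj]
          exact h1
      · rw [wordRel_single]
        unfold outL
        rw [decide_eq_true_iff]
        exact Or.inr ⟨rfl, hy⟩

section block
variable (ha : a0.val < m) (hb : b0.val < m) (hm : Ext m Sm) (hp : Ext m Sp)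
    (h0 : ¬ wordRel Sm a0 b0) (h1 : wordRel Sp a0 b0)
include ha hb hm hp h0 h1

theorem pre_succ (P : Set ℕ) (t : ℕ) (x y : Fin H) :
    wordRel (blockW Sm Sp (inL m a0) (outL m b0) (t+1) P) x y ↔
      ∃ z, wordRel (blockW Sm Sp (inL m a0) (outL m b0) t P) x z ∧ urel m P t z y := by
  unfold blockW
  rw [List.range_succ, List.flatMap_append, wordRel_append]
  simp only [List.flatMap_cons, List.flatMap_nil, List.append_nil]
  simp only [unit_rel ha hb hm hp h0 h1]

theorem claimA (P : Set ℕ) (a : ℕ) (ha' : a < 15) (x : Fin H) (hx : x.val = m + a) (t : ℕ)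
    (ht : t ≤ 15) : ∀ y, wordRel (blockW Sm Sp (inL m a0) (outL m b0) t P) x y →
      y = x ∨ (∃ i, a ≤ i ∧ i < t ∧ Set.Icc a i ⊆ P ∧ y.val = m + 15 + i) ∨
      (y.val = m + 30 ∧ a < t ∧ Set.Icc a (t-1) ⊆ P) := by
  induction t with
  | zero =>
    intro y hy
    left
    exact (show x = y from hy).symm
  | succ t ih =>
    intro y hy
    rw [pre_succ ha hb hm hp h0 h1] at hy
    obtain ⟨z, hxz, hzy⟩ := hy
    rcases ih (by omega) z hxz with rfl | ⟨i, hi1, hi2, hi3, hi4⟩ | ⟨h2, h3, h4⟩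
    · rcases hzy with ⟨_, _, rfl⟩ | ⟨h2, h3, h4⟩
      · exact Or.inl rfl
      · have hat : a = t := by omega
        subst hat
        have hsub : Set.Icc a a ⊆ P := by
          intro s hs
          have : s = a := by simpa using hs
          rw [this]; exact h3
        rcases h4 with h4 | h4
        · right; right
          exact ⟨h4, by omega, by simpa using hsub⟩
        · right; left
          exact ⟨a, le_refl _, by omega, hsub, h4⟩
    · rcases hzy with ⟨_, _, rfl⟩ | ⟨h2, h3, h4⟩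
      · right; left
        exact ⟨i, hi1, by omega, hi3, hi4⟩
      · omega
    · rcases hzy with ⟨_, h5, _⟩ | ⟨h5, h6, h7⟩
      · omega
      · have hsub : Set.Icc a t ⊆ P := by
          intro s hs
          rcases Nat.lt_or_ge s t with h | h
          · exact h4 ⟨hs.1, by omega⟩
          · have : s = t := le_antisymm hs.2 h
            rw [this]; exact h6
        rcases h7 with h7 | h7
        · right; right
          exact ⟨h7, by omega, by simpa using hsub⟩
        · right; left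
          exact ⟨t, by omega, by omega, hsub, h7⟩

theorem claimB (P : Set ℕ) (i : ℕ) (hi : i < 15) (x : Fin H) (hx : x.val = m + 15 + i) (t : ℕ)
    (ht : t ≤ 15) : ∀ y, wordRel (blockW Sm Sp (inL m a0) (outL m b0) t P) x y → y = x := by
  induction t with
  | zero =>
    intro y hy
    exact (show x = y from hy).symm
  | succ t ih =>
    intro y hy
    rw [pre_succ ha hb hm hp h0 h1] at hy
    obtain ⟨z, hxz, hzy⟩ := hy
    have := ih (by omega) z hxz
    subst this
    rcases hzy with ⟨_, _, rfl⟩ | ⟨h2, h3, h4⟩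
    · rfl
    · omega

theorem claimC (P : Set ℕ) (x : Fin H) (hx : x.val = m + 30) (t : ℕ) (ht : t ≤ 14) :
    ∀ y, ¬ wordRel (blockW Sm Sp (inL m a0) (outL m b0) (t+1) P) x y := by
  induction t with
  | zero =>
    intro y hy
    rw [pre_succ ha hb hm hp h0 h1] at hy
    obtain ⟨z, hxz, hzy⟩ := hy
    have : x = z := hxz
    subst this
    rcases hzy with ⟨_, h, _⟩ | ⟨h2, h3, h4⟩ <;> omega
  | succ t ih =>
    intro y hy
    rw [pre_succ ha hb hm hp h0 h1] at hy
    obtain ⟨z, hxz, hzy⟩ := hy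
    exact ih (by omega) z hxz

theorem claimE (P : Set ℕ) (x : Fin H) (hx : m ≤ x.val) (hx' : x.val ≠ m + 30) {s t : ℕ}
    (hst : s ≤ t) {y : Fin H} (hy : wordRel (blockW Sm Sp (inL m a0) (outL m b0) s P) y x) :
    wordRel (blockW Sm Sp (inL m a0) (outL m b0) t P) y x := by
  induction t, hst using Nat.le_induction with
  | base => exact hy
  | succ t _ ih =>
    rw [pre_succ ha hb hm hp h0 h1]
    exact ⟨x, ih, Or.inl ⟨hx, hx', rfl⟩⟩

theorem claimE' (P : Set ℕ) (x : Fin H) (hx : m ≤ x.val) (hx' : x.val ≠ m + 30) (t : ℕ) :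
    wordRel (blockW Sm Sp (inL m a0) (outL m b0) t P) x x :=
  claimE ha hb hm hp h0 h1 P x hx hx' (Nat.zero_le t) (y := x) rfl

theorem claimD (hH : m + 31 ≤ H) (P : Set ℕ) (a : ℕ) (x : Fin H) (hx : x.val = m + a) (d : ℕ)
    (hd : a + d < 15) (hP : Set.Icc a (a+d) ⊆ P) (y : Fin H)
    (hy : y.val = m + 30 ∨ y.val = m + 15 + (a + d)) :
    wordRel (blockW Sm Sp (inL m a0) (outL m b0) (a+d+1) P) x y := by
  induction d generalizing y with
  | zero =>
    rw [pre_succ ha hb hm hp h0 h1]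
    refine ⟨x, claimE' ha hb hm hp h0 h1 P x (by omega) (by omega) _, Or.inr ⟨Or.inl (by omega),
      hP ⟨by omega, by omega⟩, hy⟩⟩
  | succ d ih =>
    rw [pre_succ ha hb hm hp h0 h1]
    refine ⟨⟨m + 30, by omega⟩, ?_, Or.inr ⟨Or.inr ⟨rfl, by omega⟩, hP ⟨by omega, by omega⟩, hy⟩⟩
    exact ih (by omega) (fun s hs => hP ⟨hs.1, by have := hs.2; omega⟩) _ (Or.inl rfl)

theorem block_live (hH : m + 31 ≤ H) (P : Set ℕ) (a b : ℕ) (hab : a ≤ b) (hb' : b < 15)
    (hP : Set.Icc a b ⊆ P) (x y : Fin H) (hx : x.val = m + a) (hy : y.val = m + 15 + b) :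
    wordRel (blockW Sm Sp (inL m a0) (outL m b0) 15 P) x y := by
  obtain ⟨d, rfl⟩ : ∃ d, b = a + d := ⟨b - a, by omega⟩
  exact claimE ha hb hm hp h0 h1 P y (by omega) (by omega) (s := a + d + 1) (by omega)
    (claimD ha hb hm hp h0 h1 hH P a x hx d hb' hP y (Or.inr hy))

theorem word_live (hH : m + 31 ≤ H) (pl : List (Set ℕ)) (a b : ℕ) (hab : a ≤ b) (hb' : b < 15)
    {P : Set ℕ} (hPl : P ∈ pl) (hP : Set.Icc a b ⊆ P) (x y : Fin H) (hx : x.val = m + a)
    (hy : y.val = m + 15 + b) :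
    wordRel (wordP Sm Sp (inL m a0) (outL m b0) 15 pl) x y := by
  have pers : ∀ (z : Fin H), m ≤ z.val → z.val ≠ m + 30 → ∀ l : List (Set ℕ),
      wordRel (wordP Sm Sp (inL m a0) (outL m b0) 15 l) z z := by
    intro z hz hz' l
    induction l with
    | nil => rfl
    | cons Q l ih =>
      unfold wordP at *
      rw [List.flatMap_cons, wordRel_append]
      exact ⟨z, claimE' ha hb hm hp h0 h1 Q z hz hz' 15, ih⟩
  obtain ⟨l1, l2, rfl⟩ := List.append_of_mem hPl
  unfold wordP
  rw [List.flatMap_append, List.flatMap_cons, wordRel_append]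
  refine ⟨x, pers x (by omega) (by omega) l1, ?_⟩
  rw [wordRel_append]
  exact ⟨y, block_live ha hb hm hp h0 h1 hH P a b hab hb' hP x y hx hy,
    pers y (by omega) (by omega) l2⟩

theorem word_dead (pl : List (Set ℕ)) (a b : ℕ) (hab : a ≤ b) (hb' : b < 15)
    (hP : ∀ P ∈ pl, ¬ Set.Icc a b ⊆ P) (x y : Fin H) (hx : x.val = m + a)
    (hy : y.val = m + 15 + b) :
    ¬ wordRel (wordP Sm Sp (inL m a0) (outL m b0) 15 pl) x y := by
  let G : Fin H → Prop := fun z => z.val = m + a ∨ (∃ i, i < 15 ∧ i ≠ b ∧ z.val = m + 15 + i) ∨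
    z.val = m + 30
  have key : ∀ (l : List (Set ℕ)), (∀ P ∈ l, ¬ Set.Icc a b ⊆ P) → ∀ u v : Fin H, G u →
      wordRel (wordP Sm Sp (inL m a0) (outL m b0) 15 l) u v → G v := by
    intro l
    induction l with
    | nil =>
      intro _ u v hu huv
      have : u = v := huv
      rw [← this]; exact hu
    | cons Q l ih =>
      intro hl u v hu huv
      unfold wordP at huv ih
      rw [List.flatMap_cons, wordRel_append] at huv
      obtain ⟨w, huw, hwv⟩ := huv
      refine ih (fun P hP => hl P (by simp [hP])) w v ?_ hwv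
      have hQ := hl Q (by simp)
      rcases hu with hu | ⟨i, hi1, hi2, hi3⟩ | hu
      · rcases claimA ha hb hm hp h0 h1 Q a (by omega) u hu 15 (by omega) w huw with
          rfl | ⟨i, h2, h3, h4, h5⟩ | ⟨h2, _⟩
        · exact Or.inl hu
        · right; left
          refine ⟨i, h3, ?_, h5⟩
          rintro rfl
          exact hQ h4
        · exact Or.inr (Or.inr h2)
      · have := claimB ha hb hm hp h0 h1 Q i hi1 u hi3 15 (by omega) w huw
        subst this
        exact Or.inr (Or.inl ⟨i, hi1, hi2, hi3⟩)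
      · exact absurd huw (claimC ha hb hm hp h0 h1 Q u hu 14 (by omega) w)
  intro h
  rcases key pl hP x y (Or.inl hx) h with h | ⟨i, h2, h3, h4⟩ | h
  · omega
  · omega
  · omega

theorem word_ext (pl : List (Set ℕ)) :
    Ext (m + 31) (wordP Sm Sp (inL m a0) (outL m b0) 15 pl) := by
  apply Ext.flatMap
  intro P _
  unfold blockW
  apply Ext.flatMap
  intro j hj
  rw [List.mem_range] at hj
  constructor
  · intro x y hxy
    rw [unit_rel ha hb hm hp h0 h1] at hxy
    rcases hxy with ⟨h2, h3, rfl⟩ | ⟨h2, _, h3⟩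
    · rcases Nat.lt_or_ge y.val (m + 31) with h | h
      · exact Or.inl ⟨h, h⟩
      · exact Or.inr ⟨h, rfl⟩
    · left
      omega
  · intro x hx
    rw [unit_rel ha hb hm hp h0 h1]
    exact Or.inl ⟨by omega, by omega, rfl⟩

end block

end Crest.Agent.H9
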