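import Mathlib
import Crest.Prelude.Def_TwoWay

set_option autoImplicit false

namespace Crest.Agent.H9

open Relation Crest.TwoWay

section transfer
variable {α σ τ : Type*}

def trM (M : TwoWayNFA α σ) (e : σ ≃ τ) : TwoWayNFA α τ where
  start := e M.start
  accept := {q | e.symm q ∈ M.accept}
  step := fun q κ => {p | (e.symm p.1, p.2) ∈ M.step (e.symm q) κ}

theorem trM_language (M : TwoWayNFA α σ) (e : σ ≃ τ) : (trM M e).language = M.language := by
  ext w
  constructor
  · rintro ⟨c, hc, hacc⟩
    refine ⟨(e.symm c.1, c.2), ?_, hacc⟩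
    have : ReflTransGen (M.Step w) (e.symm (e M.start), 0) (e.symm c.1, c.2) := by
      refine ReflTransGen.lift (fun c : τ × ℕ => (e.symm c.1, c.2)) ?_ _ _ hc
      rintro a b ⟨m, h1, h2⟩
      exact ⟨m, h1, h2⟩
    simpa using this
  · rintro ⟨c, hc, hacc⟩
    refine ⟨(e c.1, c.2), ?_, by simpa [trM] using hacc⟩
    have : ReflTransGen ((trM M e).Step w) (e M.start, 0) (e c.1, c.2) := by
      refine ReflTransGen.lift (fun c : σ × ℕ => (e c.1, c.2)) ?_ _ _ hc
      rintro a b ⟨m, h1, h2⟩
      exact ⟨m, by simpa [trM] using h1, h2⟩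
    exact this

theorem trM_noLeft (M : TwoWayNFA α σ) (e : σ ≃ τ) (h : M.NoLeftMoves) :
    (trM M e).NoLeftMoves := by
  intro q a p hp
  exact h _ _ _ hp

end transfer

/-- the liveness machine -/
def liveM (h k : ℕ) : TwoWayNFA (Fin h → Fin h → Bool) (Fin h ⊕ Fin (k+2)) where
  start := Sum.inr 0
  accept := {Sum.inr 1}
  step := fun q κ =>
    match q, κ with
    | Sum.inr i, Cell.leftEnd => {p | i = 0 ∧ ∃ x : Fin h, p = (Sum.inl x, HeadMove.moveRight)}
    | Sum.inl x, Cell.letter R => {p | ∃ y : Fin h, R x y = true ∧ p = (Sum.inl y, HeadMove.moveRight)}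
    | Sum.inl _, Cell.rightEnd => {(Sum.inr 1, HeadMove.stay)}
    | _, _ => ∅

theorem liveM_noLeft (h k : ℕ) : (liveM h k).NoLeftMoves := by
  rintro (x | i) (_ | R | _) p hp
  · exact absurd hp (Set.notMem_empty _)
  · obtain ⟨y, _, rfl⟩ := hp
    simp
  · have : p = (Sum.inr 1, HeadMove.stay) := hp
    rw [this]
    simp
  · obtain ⟨_, x, rfl⟩ := hp
    simp
  · exact absurd hp (Set.notMem_empty _)
  · exact absurd hp (Set.notMem_empty _)

theorem scan_letter {α : Type*} {w : List α} {i : ℕ} (h : i < w.length) :
    scan w (i+1) = Cell.letter w[i] := by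
  simp [scan, List.getElem?_eq_getElem h]

theorem scan_right {α : Type*} {w : List α} : scan w (w.length+1) = Cell.rightEnd := by
  simp [scan]

theorem wordRel_snoc {h : ℕ} (w : List (Fin h → Fin h → Bool)) (R : Fin h → Fin h → Bool)
    {a b c : Fin h} (h1 : wordRel w a b) (h2 : R b c = true) : wordRel (w ++ [R]) a c := by
  induction w generalizing a with
  | nil =>
    have : a = b := h1
    subst this
    exact ⟨c, h2, rfl⟩
  | cons S w ih =>
    obtain ⟨d, h3, h4⟩ := h1
    exact ⟨d, h3, ih h4⟩

theorem liveM_language (h k : ℕ) : (liveM h k).language = liveness h := by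
  ext w
  constructor
  · rintro ⟨c, hc, hacc⟩
    have inv : ∀ c, ReflTransGen ((liveM h k).Step w) ((liveM h k).start, 0) c →
        (c = (Sum.inr 0, 0)) ∨
        (∃ p i, c = (Sum.inl p, i + 1) ∧ i ≤ w.length ∧ ∃ a, wordRel (w.take i) a p) ∨
        (∃ a b, wordRel w a b) := by
      intro c hc
      induction hc with
      | refl => exact Or.inl rfl
      | @tail c d _ hcd ih =>
        obtain ⟨m, h1, h2⟩ := hcd
        rcases ih with rfl | ⟨p, i, rfl, hi, a, ha⟩ | hl
        · have h1' : (d.1, m) ∈ {p | (0 : Fin (k+2)) = 0 ∧ ∃ x : Fin h, p =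
              ((Sum.inl x : Fin h ⊕ Fin (k+2)), HeadMove.moveRight)} := h1
          obtain ⟨_, x, hx⟩ := h1'
          rw [Prod.mk.injEq] at hx
          obtain ⟨hx1, rfl⟩ := hx
          simp [movePos] at h2
          right; left
          refine ⟨x, 0, ?_, by omega, x, rfl⟩
          rw [← hx1, zero_add, h2]
        · rcases Nat.lt_or_ge i w.length with hlt | hge
          · rw [scan_letter hlt] at h1
            have h1' : ∃ y : Fin h, w[i] p y = true ∧ (d.1, m) =
              ((Sum.inl y : Fin h ⊕ Fin (k+2)), HeadMove.moveRight) := h1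
            obtain ⟨y, hy, hd⟩ := h1'
            rw [Prod.mk.injEq] at hd
            obtain ⟨hd1, rfl⟩ := hd
            simp only [movePos] at h2
            rw [if_neg (by omega)] at h2
            simp only [Option.some.injEq] at h2
            right; left
            refine ⟨y, i+1, ?_, by omega, a, ?_⟩
            · rw [← hd1, h2]
            · rw [List.take_succ_eq_append_getElem hlt]
              exact wordRel_snoc _ _ ha hy
          · right; right
            have : i = w.length := by omega
            subst this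
            rw [List.take_length] at ha
            exact ⟨a, p, ha⟩
        · exact Or.inr (Or.inr hl)
    rcases inv c hc with rfl | ⟨p, i, rfl, _⟩ | hl
    · exfalso
      have : (Sum.inr 0 : Fin h ⊕ Fin (k+2)) = Sum.inr 1 := hacc
      simp at this
    · exfalso
      have : (Sum.inl p : Fin h ⊕ Fin (k+2)) = Sum.inr 1 := hacc
      simp at this
    · exact hl
  · rintro ⟨a, b, hab⟩
    have run : ∀ n i p, n + i = w.length → wordRel (w.drop i) p b →
        ReflTransGen ((liveM h k).Step w) (Sum.inl p, i+1) (Sum.inl b, w.length + 1) := by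
      intro n
      induction n with
      | zero =>
        intro i p hi hp
        have : i = w.length := by omega
        subst this
        rw [List.drop_length] at hp
        have : p = b := hp
        rw [this]
      | succ n ih =>
        intro i p hi hp
        have hlt : i < w.length := by omega
        rw [List.drop_eq_getElem_cons hlt] at hp
        obtain ⟨q, hq1, hq2⟩ := hp
        refine ReflTransGen.head ?_ (ih (i+1) q (by omega) hq2)
        refine ⟨HeadMove.moveRight, ?_, ?_⟩
        · rw [scan_letter hlt]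
          exact ⟨q, hq1, rfl⟩
        · simp only [movePos]
          rw [if_neg (by omega)]
    refine ⟨(Sum.inr 1, w.length + 1), ?_, rfl⟩
    have s1 : (liveM h k).Step w (Sum.inr 0, 0) (Sum.inl a, 0 + 1) :=
      ⟨HeadMove.moveRight, ⟨rfl, a, rfl⟩, by simp [movePos]⟩
    have s2 := run w.length 0 a (by omega) (by simpa using hab)
    have s3 : (liveM h k).Step w (Sum.inl b, w.length + 1) (Sum.inr 1, w.length + 1) := by
      refine ⟨HeadMove.stay, ?_, rfl⟩
      rw [scan_right]
      rfl
    exact (ReflTransGen.head s1 s2).tail s3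

theorem upper (h k : ℕ) : ∃ A : TwoWayNFA (Fin h → Fin h → Bool) (Fin (h + (k + 2))),
    A.NoLeftMoves ∧ A.language = liveness h :=
  ⟨trM (liveM h k) finSumFinEquiv, trM_noLeft _ _ (liveM_noLeft h k),
    (trM_language _ _).trans (liveM_language h k)⟩

end Crest.Agent.H9
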